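import Crest.Agent.X262.Bub96.Tree
import Crest.Agent.X262.Bub96.Lat
import Crest.Agent.X262.Tree87.T3

-- ▼ part X262/Emb96/Tre
section

/-!
# Row 262, EMB, lifting (helper96), part 1: line bundles of arbitrary multidegree on a tree

`IsS`, `vl` : sections and values; `rt` : the retraction to a vertex; `ext`, `vl_rt`, `vd_of_three`;
`fact` (a rank one family of tuples factors), `prop` (proportional tuples), `surj` (tuples without
common zero generate).
-/

set_option autoImplicit false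
set_option linter.unusedSectionVars false

noncomputable section

namespace Crest.Agent.X262.Emb96

open Polynomial Crest.Agent.X262.Bub96 Crest.Agent.X262.Bub96.Tr

variable {k : Type*} [Field k] {J : Type*} {io : J → Type*} {ι Λ : Type*}

/-- value of a tuple of binary forms of degrees `δ` -/
def vl (T : Tr k J io) (δ : T.Vx → ℕ) (s : T.Vx → k[X]) (x : T.Pt) : k := hv (δ x.1) (s x.1) x.2

/-- sections of the line bundle of multidegree `δ` -/
def IsS : (T : Tr k J io) → (T.Vx → ℕ) → (T.Vx → k[X]) → Prop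
  | leaf _ _, δ, s => (s ()).natDegree ≤ δ ()
  | glue T p S, δ, s => IsS T (fun a => δ (Sum.inl a)) (fun a => s (Sum.inl a)) ∧
      IsS S (fun a => δ (Sum.inr a)) (fun a => s (Sum.inr a)) ∧
      hv (δ (Sum.inr S.root)) (s (Sum.inr S.root)) none =
        hv (δ (Sum.inl T.root)) (s (Sum.inl T.root)) (some p)

theorem isS_iff [Fintype J] (κ : J → ℕ) : (T : Tr k J io) → (s : T.Vx → k[X]) →
    (IsS T (fun a => dot κ (T.vd a)) s ↔ T.IsSec κ s)
  | leaf _ _, _ => Iff.rfl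
  | glue T _ S, _ => and_congr (isS_iff κ T _) (and_congr (isS_iff κ S _) Iff.rfl)

theorem IsS.le : {T : Tr k J io} → {δ : T.Vx → ℕ} → {s : T.Vx → k[X]} → IsS T δ s →
    ∀ a, (s a).natDegree ≤ δ a
  | leaf _ _, _, _, h, _ => h
  | glue _ _ _, _, _, h, Sum.inl a => IsS.le h.1 a
  | glue _ _ _, _, _, h, Sum.inr a => IsS.le h.2.1 a

theorem IsS.smul (c : k) : {T : Tr k J io} → {δ : T.Vx → ℕ} → {s : T.Vx → k[X]} → IsS T δ s →
    IsS T δ fun a => C c * s a
  | leaf _ _, _, _, h => (natDegree_C_mul_le _ _).trans h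
  | glue _ _ _, _, _, h => ⟨IsS.smul c h.1, IsS.smul c h.2.1, by
      rw [hv_C_mul, hv_C_mul, h.2.2]⟩

theorem IsS.add : {T : Tr k J io} → {δ : T.Vx → ℕ} → {s s' : T.Vx → k[X]} → IsS T δ s →
    IsS T δ s' → IsS T δ fun a => s a + s' a
  | leaf _ _, _, _, _, h, h' => (natDegree_add_le _ _).trans (max_le h h')
  | glue _ _ _, _, _, _, h, h' => ⟨IsS.add h.1 h'.1, IsS.add h.2.1 h'.2.1, by
      rw [hv_add, hv_add, h.2.2, h'.2.2]⟩

theorem IsS.mul : {T : Tr k J io} → {δ δ' : T.Vx → ℕ} → {s s' : T.Vx → k[X]} → IsS T δ s →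
    IsS T δ' s' → IsS T (fun a => δ a + δ' a) fun a => s a * s' a
  | leaf _ _, _, _, _, _, h, h' => natDegree_mul_le.trans (add_le_add h h')
  | glue _ _ _, _, _, _, _, h, h' => ⟨IsS.mul h.1 h'.1, IsS.mul h.2.1 h'.2.1,
      (hv_mul (h.le _) (h'.le _) _).trans ((congrArg₂ (· * ·) h.2.2 h'.2.2).trans
        (hv_mul (h.le _) (h'.le _) _).symm)⟩

theorem isS_vg (j : J) (i : io j) : {T : Tr k J io} → T.OK →
    IsS T (fun a => T.vd a j) fun a => T.vg a j i
  | leaf _ _, h => h.1 j i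
  | glue _ _ _, h => ⟨isS_vg j i h.1, isS_vg j i h.2.1, h.2.2.2 j i⟩

/-! ### the retraction to a vertex -/

/-- the retraction to the vertex `a` -/
def rt : (T : Tr k J io) → T.Vx → T.Pt → Option k
  | leaf _ _, _, x => x.2
  | glue T _ _, Sum.inl a, (Sum.inl b, u) => rt T a (b, u)
  | glue T p _, Sum.inl a, (Sum.inr _, _) => rt T a (T.root, some p)
  | glue _ _ S, Sum.inr a, (Sum.inl _, _) => rt S a (S.root, none)
  | glue _ _ S, Sum.inr a, (Sum.inr b, u) => rt S a (b, u)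

/-- a form on a vertex extends to a section which vanishes on the branches at its zeros -/
theorem ext : (T : Tr k J io) → (δ : T.Vx → ℕ) → (a : T.Vx) → (σ : k[X]) → σ.natDegree ≤ δ a →
    ∃ s, IsS T δ s ∧ s a = σ ∧ ∀ x, hv (δ a) σ (rt T a x) = 0 → vl T δ s x = 0
  | leaf _ _, _, _, σ, h => ⟨fun _ => σ, h, rfl, fun _ hx => hx⟩
  | glue T p S, δ, Sum.inl a, σ, h => by
    obtain ⟨s, h1, h2, h3⟩ := ext T (fun b => δ (Sum.inl b)) a σ h
    obtain ⟨s', h4, h5, -⟩ := ext S (fun b => δ (Sum.inr b)) S.root (X ^ δ (Sum.inr S.root))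
      (natDegree_X_pow_le _)
    refine ⟨Sum.elim s fun b => C (hv (δ (Sum.inl T.root)) (s T.root) (some p)) * s' b,
      ⟨h1, h4.smul _, ?_⟩, h2, ?_⟩
    · exact (hv_C_mul _ _ _ _).trans (by rw [h5, hv_none, coeff_X_pow_self, mul_one]; rfl)
    · rintro ⟨b | b, u⟩ hx
      · exact h3 (b, u) hx
      · have : hv (δ (Sum.inl T.root)) (s T.root) (some p) = 0 := h3 (T.root, some p) hx
        simp only [vl, Sum.elim_inr, hv_C_mul, this, zero_mul]
  | glue T p S, δ, Sum.inr a, σ, h => by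
    obtain ⟨s, h1, h2, h3⟩ := ext S (fun b => δ (Sum.inr b)) a σ h
    obtain ⟨s', h4, h5, -⟩ := ext T (fun b => δ (Sum.inl b)) T.root 1 (by simp)
    refine ⟨Sum.elim (fun b => C (hv (δ (Sum.inr S.root)) (s S.root) none) * s' b) s,
      ⟨h4.smul _, h1, ?_⟩, h2, ?_⟩
    · exact ((hv_C_mul _ _ _ _).trans (by rw [h5, hv_some, eval_one, mul_one]; rfl)).symm
    · rintro ⟨b | b, u⟩ hx
      · have : hv (δ (Sum.inr S.root)) (s S.root) none = 0 := h3 (S.root, none) hx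
        simp only [vl, Sum.elim_inl, hv_C_mul, this, zero_mul]
      · exact h3 (b, u) hx

theorem vl_const : {T : Tr k J io} → {δ : T.Vx → ℕ} → {s : T.Vx → k[X]} → IsS T δ s →
    (∀ a, δ a = 0) → ∀ x y, vl T δ s x = vl T δ s y
  | leaf _ _, δ, s, hs, h, x, y => by
    have hs' : (s ()).natDegree ≤ δ () := hs
    show hv (δ ()) (s ()) x.2 = hv (δ ()) (s ()) y.2
    rw [h ()] at hs' ⊢
    rw [eq_C_of_natDegree_le_zero hs']
    rcases x.2 with _ | _ <;> rcases y.2 with _ | _ <;> simp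
  | glue T p S, δ, s, hs, h, x, y => by
    have h1 := vl_const hs.1 fun a => h (Sum.inl a)
    have h2 := vl_const hs.2.1 fun a => h (Sum.inr a)
    have key : ∀ x, vl (glue T p S) δ s x =
        hv (δ (Sum.inl T.root)) (s (Sum.inl T.root)) (some p) := by
      rintro ⟨a | a, u⟩
      · exact h1 (a, u) (T.root, some p)
      · exact (h2 (a, u) (S.root, none)).trans hs.2.2
    rw [key, key]

/-- a section of a bundle concentrated on one vertex factors through the retraction -/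
theorem vl_rt : {T : Tr k J io} → {δ : T.Vx → ℕ} → {s : T.Vx → k[X]} → IsS T δ s → (a : T.Vx) →
    (∀ b, b ≠ a → δ b = 0) → ∀ x, vl T δ s x = hv (δ a) (s a) (rt T a x)
  | leaf _ _, _, _, _, _, _, _ => rfl
  | glue T p S, _, _, hs, Sum.inl a, h, x => by
    have h1 := vl_rt hs.1 a fun b hb => h _ fun e => hb (Sum.inl_injective e)
    rcases x with ⟨b | b, u⟩
    · exact h1 (b, u)
    · exact ((vl_const hs.2.1 (fun b => h _ Sum.inr_ne_inl) (b, u) (S.root, none)).trans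
        hs.2.2).trans (h1 (T.root, some p))
  | glue T p S, _, _, hs, Sum.inr a, h, x => by
    have h1 := vl_rt hs.2.1 a fun b hb => h _ fun e => hb (Sum.inr_injective e)
    rcases x with ⟨b | b, u⟩
    · exact ((vl_const hs.1 (fun b => h _ Sum.inl_ne_inr) (b, u) (T.root, some p)).trans
        hs.2.2.symm).trans (h1 (S.root, none))
    · exact h1 (b, u)

theorem rt_or : (T : Tr k J io) → (a a' : T.Vx) → a ≠ a' →
    ∃ c c', ∀ x, rt T a x = c ∨ rt T a' x = c'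
  | leaf _ _, _, _, h => absurd rfl h
  | glue T p _, Sum.inl a, Sum.inl a', h => by
    obtain ⟨c, c', h1⟩ := rt_or T a a' fun e => h (congrArg _ e)
    refine ⟨c, c', ?_⟩
    rintro ⟨b | b, u⟩
    · exact h1 (b, u)
    · exact h1 (T.root, some p)
  | glue _ _ S, Sum.inr a, Sum.inr a', h => by
    obtain ⟨c, c', h1⟩ := rt_or S a a' fun e => h (congrArg _ e)
    refine ⟨c, c', ?_⟩
    rintro ⟨b | b, u⟩
    · exact h1 (S.root, none)
    · exact h1 (b, u)
  | glue T p S, Sum.inl a, Sum.inr a', _ => by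
    refine ⟨rt T a (T.root, some p), rt S a' (S.root, none), ?_⟩
    rintro ⟨b | b, u⟩
    · exact Or.inr rfl
    · exact Or.inl rfl
  | glue T p S, Sum.inr a, Sum.inl a', _ => by
    refine ⟨rt S a (S.root, none), rt T a' (T.root, some p), ?_⟩
    rintro ⟨b | b, u⟩
    · exact Or.inl rfl
    · exact Or.inr rfl

/-- a factor of degree one which separates three branches at `a` is concentrated on `a` -/
theorem vd_of_three {T : Tr k J io} (hT : T.OK) {j : J} (hj : T.deg j = 1) (a : T.Vx)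
    (x : Fin 3 → T.Pt) (h1 : Function.Injective fun l => rt T a (x l))
    (h2 : Function.Injective fun l => T.ev (x l) j) :
    T.vd a j = 1 ∧ ∀ b, b ≠ a → T.vd b j = 0 := by
  classical
  rw [← sum_vd] at hj
  obtain ⟨a', -, ha'⟩ := Finset.exists_ne_zero_of_sum_ne_zero (hj.trans_ne one_ne_zero)
  rw [← Finset.add_sum_erase _ _ (Finset.mem_univ a')] at hj
  have h3 : ∀ b, b ≠ a' → T.vd b j = 0 := fun b hb =>
    Finset.sum_eq_zero_iff.1 (show ∑ b ∈ Finset.univ.erase a', T.vd b j = 0 by omega) b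
      (Finset.mem_erase.2 ⟨hb, Finset.mem_univ _⟩)
  by_cases h : a = a'
  · subst h; exact ⟨by omega, h3⟩
  exfalso
  obtain ⟨c, c', h4⟩ := rt_or T a a' h
  have h5 : ∀ l l', rt T a (x l) ≠ c → rt T a (x l') ≠ c → l = l' := fun l l' hl hl' =>
    h2 (_root_.funext fun i => by
      have := vl_rt (isS_vg j i hT) a' h3
      exact (this (x l)).trans (by
        rw [(h4 _).resolve_left hl, ← (h4 _).resolve_left hl']; exact (this (x l')).symm))
  have h6 : ∀ l l', rt T a (x l) = c → rt T a (x l') = c → l = l' := fun l l' hl hl' =>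
    h1 (hl.trans hl'.symm)
  by_cases e0 : rt T a (x 0) = c
  · exact absurd (h5 1 2 (fun e => absurd (h6 0 1 e0 e) (by decide))
      fun e => absurd (h6 0 2 e0 e) (by decide)) (by decide)
  · by_cases e1 : rt T a (x 1) = c
    · exact absurd (h5 0 2 e0 fun e => absurd (h6 1 2 e1 e) (by decide)) (by decide)
    · exact absurd (h5 0 1 e0 e1) (by decide)

/-- the linear form which vanishes at a point -/
def lin {R : Type*} [CommRing R] : Option R → R[X]
  | none => 1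
  | some r => X - C r

theorem natDegree_lin {R : Type*} [CommRing R] (r : Option R) : (lin r).natDegree ≤ 1 := by
  rcases r with _ | r
  · simp [lin]
  · exact natDegree_X_sub_C_le r

theorem hv_lin (r t : Option k) : hv 1 (lin r) t = 0 ↔ t = r := by
  rcases r with _ | r <;> rcases t with _ | t <;> simp [lin, coeff_one, sub_eq_zero]

theorem lin_ne (r : Option k) : lin r ≠ 0 := by
  rcases r with _ | r
  · exact one_ne_zero
  · exact X_sub_C_ne_zero r

/-- a norming family meets three branches at every vertex of degree at least two -/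
theorem exists_three {T : Tr k J io} {δ : T.Vx → ℕ} {I : Type*} (sp : I → T.Pt)
    (hN : ∀ s, IsS T δ s → (∀ q, vl T δ s (sp q) = 0) → s = 0) (a : T.Vx) (ha : 2 ≤ δ a) :
    ∃ q : Fin 3 → I, (Function.Injective fun l => rt T a (sp (q l))) ∧ ∀ l l', l < l' →
      ∃ s, IsS T δ s ∧ vl T δ s (sp (q l)) = 0 ∧ vl T δ s (sp (q l')) ≠ 0 := by
  have key : ∀ u v : Option k, ∃ s q, IsS T δ s ∧ vl T δ s (sp q) ≠ 0 ∧ rt T a (sp q) ≠ u ∧
      rt T a (sp q) ≠ v ∧ ∀ x, rt T a x = u ∨ rt T a x = v → vl T δ s x = 0 := by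
    intro u v
    obtain ⟨m, hm⟩ := Nat.exists_eq_add_of_le ha
    have h1 : (lin u * lin v).natDegree ≤ 1 + 1 :=
      natDegree_mul_le.trans (add_le_add (natDegree_lin u) (natDegree_lin v))
    have h2 : ((X : k[X]) ^ m).natDegree ≤ m := natDegree_X_pow_le m
    obtain ⟨s, h3, h4, h5⟩ := ext T δ a (lin u * lin v * X ^ m)
      (hm ▸ natDegree_mul_le.trans (add_le_add h1 h2))
    have h6 : ∀ x, rt T a x = u ∨ rt T a x = v → vl T δ s x = 0 := fun x hx => h5 x (by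
      rw [hm, hv_mul h1 h2, hv_mul (natDegree_lin u) (natDegree_lin v)]
      rcases hx with hx | hx
      · rw [(hv_lin _ _).2 hx, zero_mul, zero_mul]
      · rw [(hv_lin _ _).2 hx, mul_zero, zero_mul])
    by_contra hc
    push Not at hc
    refine mul_ne_zero (mul_ne_zero (lin_ne u) (lin_ne v)) (pow_ne_zero m X_ne_zero)
      (h4.symm.trans (congrFun (hN s h3 fun q => ?_) a))
    by_contra h7
    obtain ⟨x, hx, hx'⟩ := hc s q h3 h7 (fun e => h7 (h6 _ (Or.inl e))) fun e => h7 (h6 _ (Or.inr e))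
    exact hx' (h6 x hx)
  obtain ⟨-, q0, -⟩ := key none none
  obtain ⟨s1, q1, a1, b1, c1, -, e1⟩ := key (rt T a (sp q0)) (rt T a (sp q0))
  obtain ⟨s2, q2, a2, b2, c2, d2, e2⟩ := key (rt T a (sp q0)) (rt T a (sp q1))
  refine ⟨![q0, q1, q2], fun l l' h => ?_, fun l l' h => ?_⟩
  · fin_cases l <;> fin_cases l' <;> first | rfl | (exfalso; simp_all)
  · fin_cases l <;> fin_cases l' <;> first
      | exact absurd h (by decide)
      | exact ⟨s1, a1, e1 _ (Or.inl rfl), b1⟩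
      | exact ⟨s2, a2, e2 _ (Or.inl rfl), b2⟩
      | exact ⟨s2, a2, e2 _ (Or.inr rfl), b2⟩

/-! ### tuples -/

/-- proportional vectors -/
def Wd {R : Type*} [Mul R] (u w : ι → R) : Prop := ∀ i i', u i * w i' = u i' * w i

theorem Wd.eq_smul {u w : ι → k} (h : Wd u w) (hw : ∃ i, w i ≠ 0) : ∃ μ, ∀ i, u i = μ * w i := by
  obtain ⟨i₀, h0⟩ := hw
  exact ⟨u i₀ / w i₀, fun i => by rw [div_mul_eq_mul_div, eq_div_iff h0, h i i₀]⟩

theorem Wd.trans {u v w : ι → k} (h : Wd u w) (h' : Wd v w) (hw : ∃ i, w i ≠ 0) : Wd u v := by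
  obtain ⟨μ, h1⟩ := h.eq_smul hw
  obtain ⟨ν, h2⟩ := h'.eq_smul hw
  intro i i'
  rw [h1 i, h1 i', h2 i, h2 i']; ring

theorem Wd.hv {u w : ι → k[X]} (h : Wd u w) {d e : ℕ} (hu : ∀ i, (u i).natDegree ≤ d)
    (hw : ∀ i, (w i).natDegree ≤ e) (x : Option k) :
    Wd (fun i => hv d (u i) x) fun i => hv e (w i) x := fun i i' => by
  simp only [← hv_mul (hu _) (hw _), h i i']

variable [Fintype ι]

theorem span_eq_top {K : Type*} [Field K] [IsAlgClosed k] (γ : K →+* k) {s : ι → K[X]}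
    (h : ∀ x : k, ∃ i, ((s i).map γ).eval x ≠ 0) : Ideal.span (Set.range s) = ⊤ := by
  obtain ⟨g, hg⟩ := (IsPrincipalIdealRing.principal (Ideal.span (Set.range s))).principal
  rw [hg, Ideal.submodule_span_eq, Ideal.span_singleton_eq_top, isUnit_iff_degree_eq_zero]
  by_contra h0
  obtain ⟨x, hx⟩ := IsAlgClosed.exists_root (g.map γ) (by rwa [degree_map])
  obtain ⟨i, hi⟩ := h x
  have h1 : g ∣ s i := Ideal.mem_span_singleton.1 (by
    rw [← Ideal.submodule_span_eq, ← hg]; exact Ideal.subset_span ⟨i, rfl⟩)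
  exact hi (hx.dvd (Polynomial.map_dvd γ h1))

theorem exists_bez [IsAlgClosed k] {s : ι → k[X]} {δ : ℕ} (h : ∀ x, ∃ i, hv δ (s i) x ≠ 0)
    (σ : k[X]) : ∃ τ : ι → k[X], ∑ i, τ i * s i = σ :=
  Ideal.mem_span_range_iff_exists_fun.1 (by
    rw [span_eq_top (RingHom.id k) fun x => by simpa using h (some x)]; trivial)

theorem fact_leaf {D : ℕ} {G : ι → k[X]} (hG : ∀ i, (G i).natDegree ≤ D)
    (h0 : ∃ i, hv D (G i) none ≠ 0) : ∃ δ ≤ D, ∃ (γ : k[X]) (s : ι → k[X]), γ ≠ 0 ∧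
      (∀ i, G i = γ * s i) ∧ (∀ i, (s i).natDegree ≤ δ) ∧ ∀ x, ∃ i, hv δ (s i) x ≠ 0 := by
  obtain ⟨γ, hγ⟩ := (IsPrincipalIdealRing.principal (Ideal.span (Set.range G))).principal
  have h1 : ∀ i, γ ∣ G i := fun i => Ideal.mem_span_singleton.1 (by
    rw [← Ideal.submodule_span_eq, ← hγ]; exact Ideal.subset_span ⟨i, rfl⟩)
  choose s hs using h1
  obtain ⟨c, hc⟩ := Ideal.mem_span_range_iff_exists_fun.1
    (show γ ∈ Ideal.span (Set.range G) from hγ ▸ Submodule.mem_span_singleton_self γ)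
  obtain ⟨i₀, hi₀⟩ := h0
  have hG0 : G i₀ ≠ 0 := fun h => hi₀ (by rw [h, hv_zero])
  have hγ0 : γ ≠ 0 := fun h => hG0 (by rw [hs, h, zero_mul])
  have h2 : ∑ i, c i * s i = 1 := mul_left_cancel₀ hγ0 (by
    rw [mul_one, Finset.mul_sum]
    exact (Finset.sum_congr rfl fun i _ => by rw [hs i, mul_left_comm]).trans hc)
  obtain ⟨δ, hδ⟩ := Nat.exists_eq_add_of_le ((natDegree_le_of_dvd ⟨_, hs i₀⟩ hG0).trans (hG i₀))
  have h3 : ∀ i, (s i).natDegree ≤ δ := fun i => by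
    by_cases h : s i = 0
    · simp [h]
    · have := hG i
      rw [hs, natDegree_mul hγ0 h] at this
      omega
  refine ⟨δ, by omega, γ, s, hγ0, hs, h3, fun x => ?_⟩
  rcases x with _ | x
  · exact ⟨i₀, fun h => hi₀ (by rw [hs, hδ, hv_mul le_rfl (h3 _), h, mul_zero])⟩
  · by_contra hc'
    push Not at hc'
    have := congrArg (eval x) h2
    rw [eval_finsetSum, eval_one, Finset.sum_eq_zero fun i _ => by
      rw [eval_mul, show (s i).eval x = 0 from hc' i, mul_zero]] at this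
    exact zero_ne_one this

/-- a family of tuples of sections of rank one factors through a tuple without common zero -/
theorem fact [Infinite k] : (T : Tr k J io) → (D : Λ → T.Vx → ℕ) → (G : Λ → ι → T.Vx → k[X]) →
    (∀ l i, IsS T (D l) (G l i)) → (∀ x, ∃ l i, vl T (D l) (G l i) x ≠ 0) →
    (∀ x l l', Wd (fun i => vl T (D l) (G l i) x) fun i => vl T (D l') (G l' i) x) →
    ∀ u : ι → k, (∃ i, u i ≠ 0) → (∀ l, Wd u fun i => vl T (D l) (G l i) (T.root, none)) →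
    ∃ (δ : T.Vx → ℕ) (s : ι → T.Vx → k[X]), (∀ i, IsS T δ (s i)) ∧
      (∀ x, ∃ i, vl T δ (s i) x ≠ 0) ∧
      (∀ x l, Wd (fun i => vl T δ (s i) x) fun i => vl T (D l) (G l i) x) ∧
      (∀ a, ∃ l, δ a ≤ D l a) ∧ ∀ i, vl T δ (s i) (T.root, none) = u i
  | leaf d g, D, G, hG, hc, hr, u, hu, hu' => by
    obtain ⟨l₀, h0⟩ := hc ((), none)
    obtain ⟨δ, hδ, γ, s, hγ, hs, h1, h2⟩ := fact_leaf (fun i => (hG l₀ i).le ()) h0
    have h3 : ∀ l, Wd s fun i => G l i () := fun l i i' => mul_left_cancel₀ hγ (by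
      rw [← mul_assoc, ← mul_assoc, ← hs, ← hs]
      exact Polynomial.funext fun x => by
        rw [eval_mul, eval_mul]; exact hr ((), some x) l₀ l i i')
    obtain ⟨μ, hμ⟩ := ((hu' l₀).trans ((h3 l₀).hv h1 (fun i => (hG l₀ i).le ()) none) h0).eq_smul
      (h2 none)
    have hμ0 : μ ≠ 0 := fun h => hu.elim fun i hi => hi (by rw [hμ, h, zero_mul])
    refine ⟨fun _ => δ, fun i _ => C μ * s i, fun i => (natDegree_C_mul_le _ _).trans (h1 i),
      fun x => ?_, fun x l i i' => ?_, fun _ => ⟨l₀, hδ⟩, fun i => ?_⟩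
    · obtain ⟨i, hi⟩ := h2 x.2
      exact ⟨i, by rw [vl, hv_C_mul]; exact mul_ne_zero hμ0 hi⟩
    · simp only [vl, hv_C_mul, mul_assoc]
      exact congrArg _ ((h3 l).hv h1 (fun i => (hG l i).le ()) x.2 i i')
    · rw [vl, hv_C_mul, hμ]
  | glue T p S, D, G, hG, hc, hr, u, hu, hu' => by
    obtain ⟨δ, s, a1, a2, a3, a4, a5⟩ := fact T (fun l a => D l (Sum.inl a))
      (fun l i a => G l i (Sum.inl a)) (fun l i => (hG l i).1) (fun x => hc (Sum.inl x.1, x.2))
      (fun x => hr (Sum.inl x.1, x.2)) u hu hu'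
    obtain ⟨δ', s', b1, b2, b3, b4, b5⟩ := fact S (fun l a => D l (Sum.inr a))
      (fun l i a => G l i (Sum.inr a)) (fun l i => (hG l i).2.1) (fun x => hc (Sum.inr x.1, x.2))
      (fun x => hr (Sum.inr x.1, x.2)) (fun i => vl T δ (s i) (T.root, some p)) (a2 _)
      fun l i i' => by
        simp only [vl, (hG l _).2.2]
        exact a3 (T.root, some p) l i i'
    refine ⟨Sum.elim δ δ', fun i => Sum.elim (s i) (s' i), fun i => ⟨a1 i, b1 i, b5 i⟩, ?_, ?_, ?_,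
      a5⟩
    · rintro ⟨a | a, x⟩
      exacts [a2 (a, x), b2 (a, x)]
    · rintro ⟨a | a, x⟩
      exacts [a3 (a, x), b3 (a, x)]
    · rintro (a | a)
      exacts [a4 a, b4 a]

theorem prop_leaf [IsAlgClosed k] {δ : ℕ} {s s' : ι → k[X]}
    (hs' : ∀ i, (s' i).natDegree ≤ δ) (h0 : ∀ x, ∃ i, hv δ (s i) x ≠ 0) (h : Wd s' s) :
    ∃ μ, ∀ i, s' i = C μ * s i := by
  obtain ⟨c, hc⟩ := exists_bez h0 1
  obtain ⟨i₀, hi₀⟩ := h0 none
  have h1 : ∀ i, s' i = (∑ i', c i' * s' i') * s i := fun i => by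
    rw [← mul_one (s' i), ← hc, Finset.mul_sum, Finset.sum_mul]
    exact Finset.sum_congr rfl fun i' _ => by rw [mul_left_comm, h i i', mul_assoc]
  have h2 : (∑ i', c i' * s' i').natDegree ≤ 0 := by
    by_cases h3 : ∑ i', c i' * s' i' = 0
    · simp [h3]
    · have h4 := hs' i₀
      have h5 : δ ≤ (s i₀).natDegree := le_natDegree_of_ne_zero hi₀
      rw [h1, natDegree_mul h3 fun h => hi₀ (by rw [h, hv_zero])] at h4
      omega
  exact ⟨_, fun i => by rw [← eq_C_of_natDegree_le_zero h2]; exact h1 i⟩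

/-- a tuple proportional to a tuple without common zero is a constant multiple of it -/
theorem prop [IsAlgClosed k] : (T : Tr k J io) → (δ : T.Vx → ℕ) → (s s' : ι → T.Vx → k[X]) →
    (∀ i, IsS T δ (s i)) → (∀ i, IsS T δ (s' i)) → (∀ x, ∃ i, vl T δ (s i) x ≠ 0) →
    (∀ a, Wd (fun i => s' i a) fun i => s i a) → ∃ μ, ∀ i a, s' i a = C μ * s i a
  | leaf _ _, _, s, _, _, hs', h0, h => by
    obtain ⟨μ, hμ⟩ := prop_leaf (s := fun i => s i ()) (fun i => (hs' i).le ())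
      (fun x => h0 ((), x)) (h ())
    exact ⟨μ, fun i _ => hμ i⟩
  | glue T p S, δ, s, s', hs, hs', h0, h => by
    obtain ⟨μ, hμ⟩ := prop T _ (fun i a => s i (Sum.inl a)) (fun i a => s' i (Sum.inl a))
      (fun i => (hs i).1) (fun i => (hs' i).1) (fun x => h0 (Sum.inl x.1, x.2))
      fun a => h (Sum.inl a)
    obtain ⟨ν, hν⟩ := prop S _ (fun i a => s i (Sum.inr a)) (fun i a => s' i (Sum.inr a))
      (fun i => (hs i).2.1) (fun i => (hs' i).2.1) (fun x => h0 (Sum.inr x.1, x.2))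
      fun a => h (Sum.inr a)
    obtain ⟨i, hi⟩ := h0 (Sum.inl T.root, some p)
    have h1 := (hs' i).2.2
    rw [hμ, hν, hv_C_mul, hv_C_mul, (hs i).2.2] at h1
    obtain rfl := mul_right_cancel₀ hi h1
    exact ⟨ν, fun i a => by rcases a with a | a; exacts [hμ i a, hν i a]⟩

theorem surj_leaf [IsAlgClosed k] {δ : ℕ} {s : ι → k[X]} (hs : ∀ i, (s i).natDegree ≤ δ)
    (h0 : ∀ x, ∃ i, hv δ (s i) x ≠ 0) {σ : k[X]} (hσ : σ.natDegree ≤ δ + δ) {u : ι → k}
    (hu : ∑ i, u i * hv δ (s i) none = hv (δ + δ) σ none) : ∃ τ : ι → k[X],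
      (∀ i, (τ i).natDegree ≤ δ) ∧ ∑ i, τ i * s i = σ ∧ ∀ i, hv δ (τ i) none = u i := by
  classical
  obtain ⟨i₀, hi₀⟩ := h0 none
  have hn : s i₀ ≠ 0 := fun h => hi₀ (by rw [h, hv_zero])
  have hd : (s i₀).degree = δ := by
    rw [degree_eq_natDegree hn, le_antisymm (hs i₀) (le_natDegree_of_ne_zero hi₀)]
  set σ' := σ - ∑ i, C (u i) * X ^ δ * s i with hσ'
  have hX : ∀ i, (C (u i) * X ^ δ).natDegree ≤ δ := fun i => natDegree_C_mul_X_pow_le _ _
  have h1 : σ'.degree < (δ + δ : ℕ) := by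
    rw [degree_lt_iff_coeff_zero]
    intro m hm
    rw [hσ', coeff_sub, finsetSum_coeff, sub_eq_zero]
    rcases eq_or_lt_of_le hm with rfl | hm
    · refine hu.symm.trans (Finset.sum_congr rfl fun i _ => ?_)
      rw [coeff_mul_add_eq_of_natDegree_le (hX i) (hs i), coeff_C_mul_X_pow, if_pos rfl, hv_none]
    · rw [coeff_eq_zero_of_natDegree_lt (hσ.trans_lt hm), Finset.sum_eq_zero fun i _ =>
        coeff_eq_zero_of_natDegree_lt
          ((natDegree_mul_le.trans (add_le_add (hX i) (hs i))).trans_lt hm)]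
  obtain ⟨β, hβ⟩ := exists_bez h0 σ'
  let r : ι → k[X] := fun i => β i % s i₀
  let γ : k[X] := ∑ i, β i / s i₀ * s i
  have h2 : ∀ i, (r i).degree < δ := fun i => hd ▸ degree_mod_lt _ hn
  have h3 : γ * s i₀ + ∑ i, r i * s i = σ' := by
    rw [← hβ, Finset.sum_mul, ← Finset.sum_add_distrib]
    refine Finset.sum_congr rfl fun i _ => ?_
    rw [← EuclideanDomain.div_add_mod (β i) (s i₀)]
    simp only [r, EuclideanDomain.div_add_mod]
    rw [← EuclideanDomain.div_add_mod (β i) (s i₀)]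
    simp only [EuclideanDomain.div_add_mod]
    have := EuclideanDomain.div_add_mod (β i) (s i₀)
    linear_combination s i * this
  have h4 : γ.degree < δ := by
    have h5 : (γ * s i₀).degree < (δ + δ : ℕ) := by
      rw [eq_sub_of_add_eq h3]
      refine (degree_sub_le _ _).trans_lt (max_lt h1 ((degree_sum_le _ _).trans_lt ?_))
      refine (Finset.sup_lt_iff (WithBot.bot_lt_coe _)).2 fun i _ => (degree_mul_le _ _).trans_lt ?_
      rw [Nat.cast_add]
      exact (add_le_add_right (degree_le_of_natDegree_le (hs i)) _).trans_lt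
        (WithBot.add_lt_add_right (WithBot.natCast_ne_bot δ) (h2 i))
    rw [degree_mul, hd, Nat.cast_add] at h5
    exact (WithBot.add_lt_add_iff_right (WithBot.natCast_ne_bot δ)).1 h5
  let ρ : ι → k[X] := fun i => r i + if i = i₀ then γ else 0
  have h6 : ∀ i, (ρ i).degree < δ := fun i => (degree_add_le _ _).trans_lt (max_lt (h2 i) (by
    split_ifs
    exacts [h4, WithBot.bot_lt_coe _]))
  refine ⟨fun i => C (u i) * X ^ δ + ρ i, fun i => (natDegree_add_le _ _).trans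
    (max_le (hX i) (natDegree_le_of_degree_le (h6 i).le)), ?_, fun i => ?_⟩
  · simp only [ρ, add_mul, Finset.sum_add_distrib, ite_mul, zero_mul, Finset.sum_ite_eq',
      Finset.mem_univ, if_true]
    linear_combination h3
  · rw [hv_none, coeff_add, coeff_C_mul_X_pow, if_pos rfl, coeff_eq_zero_of_degree_lt (h6 i),
      add_zero]

/-- a tuple without common zero generates the square of the bundle -/
theorem surj [IsAlgClosed k] : (T : Tr k J io) → (δ : T.Vx → ℕ) → (s : ι → T.Vx → k[X]) →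
    (∀ i, IsS T δ (s i)) → (∀ x, ∃ i, vl T δ (s i) x ≠ 0) → ∀ σ, IsS T (fun a => δ a + δ a) σ →
    ∀ u : ι → k, ∑ i, u i * vl T δ (s i) (T.root, none) =
      vl T (fun a => δ a + δ a) σ (T.root, none) → ∃ τ : ι → T.Vx → k[X], (∀ i, IsS T δ (τ i)) ∧
      (∀ a, ∑ i, τ i a * s i a = σ a) ∧ ∀ i, vl T δ (τ i) (T.root, none) = u i
  | leaf _ _, _, _, hs, h0, _, hσ, _, hu => by
    obtain ⟨τ, h1, h2, h3⟩ := surj_leaf (fun i => (hs i).le ()) (fun x => h0 ((), x)) (hσ.le ()) hu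
    exact ⟨fun i _ => τ i, h1, fun _ => h2, h3⟩
  | glue T p S, δ, s, hs, h0, σ, hσ, u, hu => by
    obtain ⟨τ, a1, a2, a3⟩ := surj T _ (fun i a => s i (Sum.inl a)) (fun i => (hs i).1)
      (fun x => h0 (Sum.inl x.1, x.2)) _ hσ.1 u hu
    obtain ⟨τ', b1, b2, b3⟩ := surj S _ (fun i a => s i (Sum.inr a)) (fun i => (hs i).2.1)
      (fun x => h0 (Sum.inr x.1, x.2)) _ hσ.2.1
      (fun i => hv (δ (Sum.inl T.root)) (τ i T.root) (some p)) (by
        refine Eq.trans ?_ hσ.2.2.symm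
        rw [← a2 T.root, hv_sum]
        exact Finset.sum_congr rfl fun i _ => (congrArg _ (hs i).2.2).trans
          (hv_mul ((a1 i).le _) ((hs i).1.le _) _).symm)
    exact ⟨fun i => Sum.elim (τ i) (τ' i), fun i => ⟨a1 i, b1 i, b3 i⟩,
      fun a => by rcases a with a | a; exacts [a2 a, b2 a], a3⟩

/-- forgetting factors -/
theorem exists_rs {J' : Type*} (e : J' → J) : (T : Tr k J io) → T.OK →
    ∃ T₀ : Tr k J' fun j => io (e j), T₀.OK ∧ (T₀.deg = fun j => T.deg (e j)) ∧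
      T₀.hole T₀.root = T.hole T.root ∧
      (∀ u, T₀.ev (T₀.root, u) = fun j => T.ev (T.root, u) (e j)) ∧
      (∀ x, ∃ y, T₀.ev y = fun j => T.ev x (e j)) ∧ ∀ y, ∃ x, T₀.ev y = fun j => T.ev x (e j)
  | leaf d g, h => ⟨leaf (fun j => d (e j)) fun j => g (e j),
      ⟨fun j => h.1 (e j), fun j => h.2 (e j)⟩, rfl, rfl, fun _ => rfl, fun x => ⟨x, rfl⟩,
      fun y => ⟨y, rfl⟩⟩
  | glue T p S, h => by
    obtain ⟨T₀, a1, a2, a3, a4, a5, a6⟩ := exists_rs e T h.1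
    obtain ⟨S₀, b1, b2, -, b4, b5, b6⟩ := exists_rs e S h.2.1
    refine ⟨glue T₀ p S₀, ⟨a1, b1, a3 ▸ h.2.2.1, fun j i => by
      rw [a4, b4]; exact h.2.2.2 (e j) i⟩, ?_, ?_, a4, ?_, ?_⟩
    · funext j
      change T₀.deg j + S₀.deg j = _
      rw [a2, b2]; rfl
    · ext x
      simp only [root_glue, mem_hole_inl, a3, true_and]
    · rintro ⟨a | a, u⟩
      · exact (a5 (a, u)).elim fun y hy => ⟨(Sum.inl y.1, y.2), hy⟩
      · exact (b5 (a, u)).elim fun y hy => ⟨(Sum.inr y.1, y.2), hy⟩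
    · rintro ⟨a | a, u⟩
      · exact (a6 (a, u)).elim fun y hy => ⟨(Sum.inl y.1, y.2), hy⟩
      · exact (b6 (a, u)).elim fun y hy => ⟨(Sum.inr y.1, y.2), hy⟩

end Crest.Agent.X262.Emb96
end
private theorem rz_b7766806ad : type_of% @_root_.Crest.Agent.X262.Emb96.lin.eq_1 := @_root_.Crest.Agent.X262.Emb96.lin.eq_1 -- L196
end

-- ▼ part X262/Emb96/Loc
section

/-!
# Row 262, EMB, lifting (helper96), part 2: valuative lemmas

`tl_loc` (the reduction of a locally normed datum is tree-like), `mem_red_iff` (elements of the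
reduced spaces), `le_of_nrm`, `lt_of_nrm` (bounds spread from norming points), `exists_mono`.
-/

set_option autoImplicit false
set_option linter.unusedSectionVars false

noncomputable section

namespace Crest.Agent.X262.Emb96

open Polynomial IsLocalRing Crest.Agent.X277 Crest.Agent.X277.BD Crest.Agent.X262.Vb
open Crest.Agent.X262.Bub96 Crest.Agent.X262.Bub96.Tr Crest.Agent.X262.Tree87

variable {J : Type} [Fintype J] [DecidableEq J] {io : J → Type} [∀ j, Fintype (io j)]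
  [∀ j, DecidableEq (io j)] {d : J → ℕ} {I : Type}
  {K E : Type} [Field K] [Algebra ℂ K] [Field E] [Algebra ℂ E]

/-- the points are norming over all valued extensions of `V` -/
def NAt (ξ : Dat io d I K) (V : RZ ℂ K) (κ : J → ℕ) : Prop :=
  ∀ (L : Type) [Field L] [Algebra ℂ L] (α : K →ₐ[ℂ] L) (W : RZ ℂ L),
    cm (α : K →+* L) (alg_ov α) W = V → ∀ σ : L[X], σ.natDegree ≤ dot κ d →
    (∀ q, W.v (hv (dot κ d) σ ((ξ.map α).x q)) ≤ (lw κ ((ξ.map α).pt ((ξ.map α).x q))).val W) →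
    ∀ t, W.v (hv (dot κ d) σ t) ≤ (lw κ ((ξ.map α).pt t)).val W

/-- the reduction of a locally normed datum is tree-like -/
theorem tl_loc [Fintype I] {ξ : Dat io d I K} {N : ℕ} (p : Pl ℂ K ℂ E)
    (h : ∀ κ : J → ℕ, (∀ j, κ j ≤ N) → NAt ξ p.V κ)
    (hi : ∀ κ : J → ℕ, (∀ j, κ j ≤ N) → Module.finrank K (ξ.cfg.V κ) = dot κ d + 1) :
    TL d N (ξ.cfg.red p) := by
  obtain ⟨L, _, _, _, α, W, β, hW, hβ, -⟩ := exists_ext p
  let _ : Algebra ℂ (ResidueField W.1) := (β.comp (algebraMap ℂ E)).toAlgebra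
  let β' : E →ₐ[ℂ] ResidueField W.1 := { β with commutes' := fun _ => rfl }
  have := (rd W).isAlgClosed
  obtain ⟨A⟩ := exists_red (rd W) (cop_of_cp (ξ.map α).cp)
  set n := ξ.cfg.nrm p.V with hn
  have hn0 : ∀ q j, n q j ≠ 0 := fun q j => inv_ne_zero (gen_ne _ _)
  have hmem : ∀ x, α x ∈ W.1 ↔ x ∈ p.V.1 := fun x => by rw [← hW]; rfl
  let u : I → J → L := fun q j => A.nrm ((ξ.map α).x q) j / α (n q j)
  have hu : ∀ q j, W.v (u q j) = 1 := fun q j => by
    have h1 := v_nrm A ((ξ.map α).x q) j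
    rw [show (ξ.map α).x q = (ξ.x q).map α from rfl, pt_map, ln, ← pb_mxf, pb, val_mp_gen, hW,
      ← map_mul] at h1
    rw [← h1]
    simp only [u, hn, Cfg.nrm, map_inv₀, div_inv_eq_mul]
    rfl
  have huO : ∀ q j, u q j ∈ (rd W).O := fun q j => RZ.le_one_iff.1 (hu q j).le
  have hun : ∀ q j, u q j * α (n q j) = A.nrm ((ξ.map α).x q) j := fun q j =>
    div_mul_cancel₀ _ ((map_ne_zero α).2 (hn0 q j))
  let c : I → J → ResidueField W.1 := fun q j => (rd W).p (u q j)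
  have hc : ∀ q j, c q j ≠ 0 := fun q j => (rd W).p_ne_zero (hu q j)
  have hV : ∀ κ : J → ℕ, (∀ j, κ j ≤ N) →
      (((ξ.cfg.red p).map β').gau c).V κ ≤
        (A.T.Sec κ).map (vals A.T (fun q => A.sp ((ξ.map α).x q)) κ) := by
    intro κ hκ
    refine Submodule.map_le_iff_le_comap.2 (mapS_redS_le β' ?_)
    rintro _ ⟨_, ⟨σ, hσ, rfl⟩, rfl⟩ hi
    have hσ' : (σ.map (α : K →+* L)).natDegree ≤ dot κ d :=
      natDegree_map_le.trans (natDegree_le_of_degree_le (mem_degreeLE.1 hσ))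
    have hi' : ∀ q, (∏ j, n q j ^ κ j) * hv (dot κ d) σ (ξ.x q) ∈ p.V.1 := hi
    have hU : ∀ q, (∏ j, u q j ^ κ j) ∈ (rd W).O := fun q =>
      prod_mem fun j _ => pow_mem (huO q j) _
    have e : ∀ q, A.nv κ (σ.map (α : K →+* L)) ((ξ.map α).x q) =
        (∏ j, u q j ^ κ j) * α ((∏ j, n q j ^ κ j) * hv (dot κ d) σ (ξ.x q)) := fun q => by
      rw [Red.nv, map_mul, map_prod, ← mul_assoc, ← Finset.prod_mul_distrib]
      congr 1
      · exact Finset.prod_congr rfl fun j _ => by rw [map_pow, ← mul_pow, hun]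
      · exact hv_map (α : K →+* L) _ _ _
    obtain ⟨s, hs, hs'⟩ := A.exists_sec hσ' fun t => (nv_mem_iff A κ _ t).2
      (h κ hκ L α W hW _ hσ' (fun q => (nv_mem_iff A κ _ _).1
        (e q ▸ mul_mem (hU q) ((hmem _).2 (hi' q)))) t)
    refine ⟨s, hs, _root_.funext fun q => ?_⟩
    refine (hs' _).symm.trans ?_
    rw [e, (rd W).p_mul (hU q) ((hmem _).2 (hi' q)), hβ _ (hi' q),
      (rd W).p_prod _ _ fun j _ => pow_mem (huO q j) _]
    simp only [(rd W).p_pow (huO q _)]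
    rfl
  have hfr : ∀ κ : J → ℕ, (∀ j, κ j ≤ N) →
      Module.finrank (ResidueField W.1) ((((ξ.cfg.red p).map β').gau c).V κ) =
        Module.finrank (ResidueField W.1) (A.T.Sec κ) := by
    intro κ hκ
    rw [finrank_sec κ A.ok, A.deg, ← hi κ hκ]
    exact (finrank_sclS (fun q => Finset.prod_ne_zero_iff.2 fun j _ => pow_ne_zero _ (hc q j))
      _).trans ((finrank_mapS β' _).trans ((finrank_redS p _).trans (finrank_sclS
        (fun q => Finset.prod_ne_zero_iff.2 fun j _ => pow_ne_zero _ (hn0 q j)) _)))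
  have hE : ∀ κ : J → ℕ, (∀ j, κ j ≤ N) → (((ξ.cfg.red p).map β').gau c).V κ =
      (A.T.Sec κ).map (vals A.T (fun q => A.sp ((ξ.map α).x q)) κ) := fun κ hκ => by
    have := finite_sec κ A.T
    exact Submodule.eq_of_le_of_finrank_le (hV κ hκ)
      ((Submodule.finrank_map_le _ _).trans (hfr κ hκ).ge)
  refine ⟨_, inferInstance, inferInstance, this, ⟨{
    α := β'
    t := A.T
    sp := fun q => A.sp ((ξ.map α).x q)
    c := c
    ok := A.ok
    deg := A.deg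
    c_ne := hc
    y_eq := fun q => _root_.funext fun j => _root_.funext fun i => ?_
    V_eq := hE
    nrm := fun κ hκ s hs h0 => ?_ }⟩⟩
  · have h1 : n q j * ξ.pt (ξ.x q) j i ∈ p.V.1 := by
      rw [hn, Cfg.nrm, inv_mul_eq_div]
      exact (RZ.le_iff (gen_ne _ _)).1 (v_gen _ p.V ▸ mem_Sec_mxf _ i p.V)
    rw [← A.ev_sp, ← hun, mul_assoc]
    refine ((congrArg (c q j * ·) (hβ _ h1)).symm.trans
      ((rd W).p_mul (huO q j) ((hmem _).2 h1)).symm).trans ?_
    rw [map_mul]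
    exact congrArg (fun z => (rd W).p (u q j * (α (n q j) * z)))
      (hv_map (α : K →+* L) _ _ _).symm
  · have := finite_sec κ A.T
    exact inj_of_finrank _ _ (by rw [← hE κ hκ, hfr κ hκ]) s hs
      (_root_.funext fun q => h0 _ ⟨q, rfl⟩)

theorem finrank_of_inj {ξ : Dat io d I K} {κ : J → ℕ}
    (h : ∀ σ : K[X], σ.natDegree ≤ dot κ d → (∀ q, hv (dot κ d) σ (ξ.x q) = 0) → σ = 0) :
    Module.finrank K (ξ.cfg.V κ) = dot κ d + 1 := by
  refine (finrank_map_of_inj _ _ fun σ hσ h0 =>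
    h σ (natDegree_le_of_degree_le (mem_degreeLE.1 hσ)) (congrFun h0)).trans ?_
  rw [← degreeLT_succ_eq_degreeLE, (degreeLTEquiv K _).finrank_eq, Module.finrank_fin_fun]

theorem exists_of_mem {P : Type} {p : Pl ℂ K ℂ E} (hs : Function.Surjective p.φ)
    {U : Submodule K (P → K)} {w : P → E} (hw : w ∈ redS p U) :
    ∃ u ∈ U, (∀ x, u x ∈ p.V.1) ∧ w = fun x => p.r (u x) := by
  induction hw using Submodule.span_induction with
  | mem w hw => exact hw
  | zero => exact ⟨0, zero_mem _, fun _ => zero_mem _, by funext x; simp⟩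
  | add a b _ _ ha hb =>
    obtain ⟨u, h1, h2, rfl⟩ := ha
    obtain ⟨u', h3, h4, rfl⟩ := hb
    exact ⟨u + u', add_mem h1 h3, fun x => add_mem (h2 x) (h4 x),
      _root_.funext fun x => (Pl.r_add (h2 x) (h4 x)).symm⟩
  | smul c a _ ha =>
    obtain ⟨u, h1, h2, rfl⟩ := ha
    obtain ⟨c', rfl⟩ := hs c
    refine ⟨(c' : K) • u, U.smul_mem _ h1, fun x => mul_mem c'.2 (h2 x), _root_.funext fun x => ?_⟩
    change _ = p.r (c' * u x)
    rw [Pl.r_mul c'.2 (h2 x), Pl.r_coe]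
    rfl

/-- the normalising factor of `O(κ)` at the point `y` -/
def ch (V : RZ ℂ K) (κ : J → ℕ) (y : Pnt io K) : K := ∏ j, ((ln y j).gen V)⁻¹ ^ κ j

theorem val_lw' (V : RZ ℂ K) (κ : J → ℕ) (y : Pnt io K) :
    (lw κ y).val V = ∏ j, (ln y j).val V ^ κ j := by
  simp only [lw, val_sum, val_nsmul]

theorem v_ch (V : RZ ℂ K) (κ : J → ℕ) (y : Pnt io K) :
    V.v (ch V κ y) = ((lw κ y).val V)⁻¹ := by
  simp only [ch, val_lw', map_prod, map_pow, map_inv₀, v_gen, inv_pow, Finset.prod_inv_distrib]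

theorem ch_ne (V : RZ ℂ K) (κ : J → ℕ) (y : Pnt io K) : ch V κ y ≠ 0 :=
  chr_ne' (fun _ => inv_ne_zero (gen_ne _ _)) κ

theorem ch_mem {V : RZ ℂ K} {κ : J → ℕ} {y : Pnt io K} {a : K} :
    ch V κ y * a ∈ V.1 ↔ V.v a ≤ (lw κ y).val V := by
  rw [← RZ.le_one_iff, map_mul, v_ch, inv_mul_le_one₀ (val_pos _ _)]

theorem ch_lt {V : RZ ℂ K} {κ : J → ℕ} {y : Pnt io K} {a : K} :
    V.v (ch V κ y * a) < 1 ↔ V.v a < (lw κ y).val V := by
  rw [map_mul, v_ch, inv_mul_lt_one₀ (val_pos _ _)]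

theorem ch_add (V : RZ ℂ K) (κ κ' : J → ℕ) (y : Pnt io K) :
    ch V (κ + κ') y = ch V κ y * ch V κ' y := by
  simp only [ch, Pi.add_apply, pow_add, Finset.prod_mul_distrib]

theorem val_lw_add (V : RZ ℂ K) (κ κ' : J → ℕ) (y : Pnt io K) :
    (lw (κ + κ') y).val V = (lw κ y).val V * (lw κ' y).val V := by
  simp only [val_lw', Pi.add_apply, pow_add, Finset.prod_mul_distrib]

theorem dot_add' (κ κ' d : J → ℕ) : dot (κ + κ') d = dot κ d + dot κ' d := by
  simp only [dot, Pi.add_apply, add_mul, Finset.sum_add_distrib]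

/-- the elements of the reduced spaces -/
theorem mem_red_iff [Fintype I] {ξ : Dat io d I K} {p : Pl ℂ K ℂ E} (hs : Function.Surjective p.φ)
    {κ : J → ℕ} {u : I → E} : u ∈ (ξ.cfg.red p).V κ ↔ ∃ σ : K[X], σ.natDegree ≤ dot κ d ∧
      (∀ q, p.V.v (hv (dot κ d) σ (ξ.x q)) ≤ (lw κ (ξ.pt (ξ.x q))).val p.V) ∧
      ∀ q, u q = p.r (ch p.V κ (ξ.pt (ξ.x q)) * hv (dot κ d) σ (ξ.x q)) := by
  constructor
  · intro hu
    obtain ⟨_, ⟨_, ⟨σ, hσ, rfl⟩, rfl⟩, h1, rfl⟩ := exists_of_mem hs hu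
    exact ⟨σ, natDegree_le_of_degree_le (mem_degreeLE.1 hσ), fun q => ch_mem.1 (h1 q), fun _ => rfl⟩
  · rintro ⟨σ, h1, h2, h3⟩
    rw [show u = _ from _root_.funext h3]
    exact red_mem_redS (u := fun q => ch p.V κ (ξ.pt (ξ.x q)) * hv (dot κ d) σ (ξ.x q))
      ⟨_, ⟨σ, mem_degreeLE.2 (degree_le_of_natDegree_le h1), rfl⟩, rfl⟩ fun q => ch_mem.2 (h2 q)

theorem dat_map_id (ξ : Dat io d I K) : ξ.map (AlgHom.id ℂ K) = ξ := by
  obtain ⟨f, x, h⟩ := ξ
  simp only [Dat.map, AlgHom.coe_id, Option.map_id, id_eq, Dat.mk.injEq, and_true]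
  exact _root_.funext fun j => _root_.funext fun i => Polynomial.map_id

theorem nrm_map' {ξ : Dat io d I K} {κ : J → ℕ} (h : ξ.Nrm κ) (θ : K →ₐ[ℂ] E) :
    (ξ.map θ).Nrm κ := fun L _ _ α W σ hσ => by
  rw [dat_map_map]; exact h L _ W σ hσ

section spread

variable {L : Type} [Field L] [Algebra ℂ L] {ξ : Dat io d I K} {κ : J → ℕ} {σ : K[X]}

theorem le_of_nrm (h : ξ.Nrm κ) (α : K →ₐ[ℂ] L) (W : RZ ℂ L) {V : RZ ℂ K}
    (hW : cm (α : K →+* L) (alg_ov α) W = V) (hσ : σ.natDegree ≤ dot κ d)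
    (hq : ∀ q, V.v (hv (dot κ d) σ (ξ.x q)) ≤ (lw κ (ξ.pt (ξ.x q))).val V) (t : Option L) :
    W.v (hv (dot κ d) (σ.map (α : K →+* L)) t) ≤ (lw κ ((ξ.map α).pt t)).val W := by
  subst hW
  refine h L α W _ (natDegree_map_le.trans hσ) (fun q => ?_) t
  rw [show (ξ.map α).x q = (ξ.x q).map α from rfl, pt_map, lw_map,
    show (ξ.x q).map α = (ξ.x q).map (α : K →+* L) from rfl, hv_map]
  exact v_le_val_mp.2 (hq q)

theorem lt_of_nrm [Finite I] (h : ξ.Nrm κ) (α : K →ₐ[ℂ] L) (W : RZ ℂ L) {V : RZ ℂ K}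
    (hW : cm (α : K →+* L) (alg_ov α) W = V) (hσ : σ.natDegree ≤ dot κ d)
    (hq : ∀ q, V.v (hv (dot κ d) σ (ξ.x q)) < (lw κ (ξ.pt (ξ.x q))).val V) (t : Option L) :
    W.v (hv (dot κ d) (σ.map (α : K →+* L)) t) < (lw κ ((ξ.map α).pt t)).val W := by
  by_cases h0 : (fun q => ch V κ (ξ.pt (ξ.x q)) * hv (dot κ d) σ (ξ.x q)) = 0
  · rw [nrm_inj h hσ fun q => (mul_eq_zero.1 (congrFun h0 q)).resolve_left (ch_ne V κ _), Polynomial.map_zero, hv_zero, map_zero]
    exact val_pos _ _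
  obtain ⟨q₀, h1, h2⟩ := exists_prim V h0
  set r := ch V κ (ξ.pt (ξ.x q₀)) * hv (dot κ d) σ (ξ.x q₀)
  have h3 := le_of_nrm h α W hW (σ := C r⁻¹ * σ) ((natDegree_C_mul_le _ _).trans hσ)
    (fun q => ch_mem.1 (by rw [hv_C_mul, mul_left_comm]; exact h2 q)) t
  have h4 : W.v (α r) < 1 := by
    have := (v_cm_lt_iff (α : K →+* L) (alg_ov α) (W := W) (x := r) (y := 1)).1
      (by rw [hW, map_one]; exact ch_lt.2 (hq q₀))
    simpa using this
  have h5 : 0 < W.v (α r) := RZ.pos ((map_ne_zero α).2 h1)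
  rw [Polynomial.map_mul, map_C, hv_C_mul, map_mul, map_inv₀, map_inv₀] at h3
  exact ((inv_mul_le_iff₀ h5).1 h3).trans_lt (mul_lt_of_lt_one_left (val_pos _ _) h4)

end spread

theorem hv_prod {R ι : Type*} [CommRing R] (s : Finset ι) {n : ι → ℕ} {f : ι → R[X]}
    (hf : ∀ i, (f i).natDegree ≤ n i) : (∏ i ∈ s, f i).natDegree ≤ ∑ i ∈ s, n i ∧
      ∀ t, hv (∑ i ∈ s, n i) (∏ i ∈ s, f i) t = ∏ i ∈ s, hv (n i) (f i) t := by
  classical
  induction s using Finset.induction_on with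
  | empty => exact ⟨by simp, fun t => by cases t <;> simp⟩
  | insert a s ha ih =>
    simp only [Finset.sum_insert ha, Finset.prod_insert ha]
    exact ⟨natDegree_mul_le.trans (add_le_add (hf a) ih.1), fun t => by
      rw [hv_mul (hf a) ih.1, ih.2]⟩

theorem hv_mono {R : Type*} [CommRing R] {f : J → R[X]} (hf : ∀ j, (f j).natDegree ≤ d j)
    (κ : J → ℕ) : (∏ j, f j ^ κ j).natDegree ≤ dot κ d ∧
      ∀ t, hv (dot κ d) (∏ j, f j ^ κ j) t = ∏ j, hv (d j) (f j) t ^ κ j := by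
  have h1 : ∀ j, (f j ^ κ j).natDegree ≤ κ j * d j ∧
      ∀ t, hv (κ j * d j) (f j ^ κ j) t = hv (d j) (f j) t ^ κ j := fun j => by
    simpa using hv_prod (Finset.range (κ j)) (n := fun _ => d j) (f := fun _ => f j) fun _ => hf j
  have h2 := hv_prod Finset.univ fun j => (h1 j).1
  exact ⟨h2.1, fun t => (h2.2 t).trans (Finset.prod_congr rfl fun j _ => (h1 j).2 t)⟩

/-- a monomial in the coordinates generates `O(κ)` at a given point -/
theorem exists_mono {L : Type} [Field L] [Algebra ℂ L] (ξ : Dat io d I K) (κ : J → ℕ)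
    (α : K →ₐ[ℂ] L) (W : RZ ℂ L) (t : Option L) : ∃ σ : K[X], σ.natDegree ≤ dot κ d ∧
      (∀ (V : RZ ℂ K) u, V.v (hv (dot κ d) σ u) ≤ (lw κ (ξ.pt u)).val V) ∧
      W.v (hv (dot κ d) (σ.map (α : K →+* L)) t) = (lw κ ((ξ.map α).pt t)).val W := by
  choose i hi using fun j => exists_val_mxf (k := ℂ) (nz_pt (ξ.map α) t j) W
  have h1 := hv_mono (f := fun j => ξ.f j (i j)) (fun j => ξ.cp.1 j _) κ
  have h2 := hv_mono (f := fun j => (ξ.map α).f j (i j)) (fun j => (ξ.map α).cp.1 j _) κ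
  refine ⟨_, h1.1, fun V u => ?_, ?_⟩
  · rw [h1.2, val_lw', map_prod]
    exact Finset.prod_le_prod' fun j _ => by
      rw [map_pow]; exact pow_le_pow_left' (mem_Sec_mxf (ξ.pt u j) (i j) V) _
  · rw [Polynomial.map_prod]
    simp only [Polynomial.map_pow]
    refine (congrArg W.v (h2.2 t)).trans ?_
    rw [val_lw', map_prod]
    exact Finset.prod_congr rfl fun j _ => by rw [map_pow]; exact congrArg (· ^ κ j) (hi j)

theorem exists_rt (α : K →ₐ[ℂ] E) {a : E} (ha : a ≠ 0) : ∃ l : E →+ K, IsRt α l ∧ l a ≠ 0 := by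
  let _ : Algebra K E := (α : K →+* E).toAlgebra
  obtain ⟨l, hl⟩ := Module.Projective.exists_dual_eq_one K ha
  exact ⟨l.toAddMonoidHom, fun a y => l.map_smul a y, hl.trans_ne one_ne_zero⟩

end Crest.Agent.X262.Emb96
end
end

-- ▼ part X262/Emb96/Cor
section

/-!
# Row 262, EMB, lifting (helper96), part 3: the lift of a map which is given in charts

`ioP`, `dP` : auxiliary factors of degree one; `cfg_lift` (on tree-like configurations),
`exists_lift` (for data at a place).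
-/

set_option autoImplicit false
set_option linter.unusedSectionVars false

noncomputable section

namespace Crest.Agent.X262.Emb96

open Polynomial Crest.Agent.X277 Crest.Agent.X277.BD Crest.Agent.X262.Vb
open Crest.Agent.X262.Bub96 Crest.Agent.X262.Bub96.Tr Crest.Agent.X262.Tree87

variable {J : Type} [Fintype J] [DecidableEq J] {io : J → Type} [∀ j, Fintype (io j)]
  [∀ j, DecidableEq (io j)] {d : J → ℕ} {I : Type} [Fintype I]
  {K E : Type} [Field K] [Algebra ℂ K] [Field E] [Algebra ℂ E]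

theorem isS_of_ev {k : Type*} [Field k] {J : Type*} {io : J → Type*} (φ : ((j : J) → io j → k) → k) :
    {T : Tr k J io} → T.OK → {δ : T.Vx → ℕ} → {s : T.Vx → k[X]} → (∀ a, (s a).natDegree ≤ δ a) →
    (∀ x, vl T δ s x = φ (T.ev x)) → IsS T δ s
  | leaf _ _, _, _, _, h, _ => h ()
  | glue T p S, hT, _, _, h, h' =>
    ⟨isS_of_ev φ hT.1 (fun a => h (Sum.inl a)) fun x => h' (Sum.inl x.1, x.2),
      isS_of_ev φ hT.2.1 (fun a => h (Sum.inr a)) fun x => h' (Sum.inr x.1, x.2),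
      (h' (Sum.inr S.root, none)).trans ((congrArg φ (ev_node hT)).trans
        (h' (Sum.inl T.root, some p)).symm)⟩

section TD

variable {N : ℕ} {z : Cfg io I E} {k : Type} [Field k] [Algebra ℂ k] (D : TD d N z k) {κ : J → ℕ}

/-- degrees of `O(κ)` on the vertices -/
abbrev dg (κ : J → ℕ) : D.t.Vx → ℕ := fun a => dot κ (D.t.vd a)

/-- the gauge factor -/
abbrev cf (κ : J → ℕ) (q : I) : k := ∏ j, D.c q j ^ κ j

theorem cf_ne (κ : J → ℕ) (q : I) : cf D κ q ≠ 0 := chr_ne' (D.c_ne q) κ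

theorem mem_iff (hκ : ∀ j, κ j ≤ N) {u : I → k} : u ∈ mapS D.α (z.V κ) ↔
    ∃ s, IsS D.t (dg D κ) s ∧ ∀ q, vl D.t (dg D κ) s (D.sp q) = cf D κ q * u q := by
  rw [← mul_mem_sclS_iff (c := cf D κ) (cf_ne D κ)]
  exact (D.mem_V hκ).trans (exists_congr fun s => and_congr (isS_iff κ _ s).symm Iff.rfl)

theorem desc (hκ : ∀ j, κ j ≤ N) {s : D.t.Vx → k[X]} (hs : IsS D.t (dg D κ) s) {l : k →+ E}
    (hl : IsRt D.α l) : (fun q => l ((cf D κ q)⁻¹ * vl D.t (dg D κ) s (D.sp q))) ∈ z.V κ :=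
  (mem_mapS_iff D.α).1 ((mem_iff D hκ).2
    ⟨s, hs, fun q => (mul_inv_cancel_left₀ (cf_ne D κ q) _).symm⟩) l hl

theorem eq_zero (hκ : ∀ j, κ j ≤ N) {s : D.t.Vx → k[X]} (hs : IsS D.t (dg D κ) s)
    (h : ∀ q, vl D.t (dg D κ) s (D.sp q) = 0) : s = 0 := D.eq_zero hκ ((isS_iff κ _ s).1 hs) h

/-- descent of a tuple without common zero whose direction at the points is rational -/
theorem desc_tuple [IsAlgClosed k] {ι : Type} [Fintype ι] (hκ : ∀ j, (κ + κ) j ≤ N)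
    {s : ι → D.t.Vx → k[X]} (hs : ∀ i, IsS D.t (dg D κ) (s i))
    (h0 : ∀ x, ∃ i, vl D.t (dg D κ) (s i) x ≠ 0) {w : I → ι → E} (hw : ∀ q, ∃ i, w q i ≠ 0)
    (hsw : ∀ q, Wd (fun i => vl D.t (dg D κ) (s i) (D.sp q)) fun i => D.α (w q i)) :
    ∃ u : ι → I → E, (∀ i, u i ∈ z.V κ) ∧ (∀ q, ∃ i, u i q ≠ 0) ∧
      (∀ q, Wd (fun i => u i q) (w q)) ∧ ∀ σ ∈ z.V (κ + κ), ∃ τ : ι → I → E,
        (∀ i, τ i ∈ z.V κ) ∧ ∀ q, ∑ i, τ i q * u i q = σ q := by
  classical
  have hκ' : ∀ j, κ j ≤ N := fun j => le_trans (Nat.le_add_right _ _) (hκ j)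
  have e2 : dg D (κ + κ) = fun a => dg D κ a + dg D κ a := _root_.funext fun a => dot_add' _ _ _
  have c2 : ∀ q, cf D (κ + κ) q = cf D κ q * cf D κ q := fun q => by
    simp only [cf, Pi.add_apply, pow_add, Finset.prod_mul_distrib]
  obtain ⟨i₀, hi₀⟩ := h0 (D.t.root, none)
  obtain ⟨q₀, hq₀⟩ : ∃ q, vl D.t (dg D κ) (s i₀) (D.sp q) ≠ 0 := by
    by_contra hc
    push Not at hc
    exact hi₀ (by rw [eq_zero D hκ' (hs i₀) hc]; exact hv_zero _ _)
  obtain ⟨l, hl, hl0⟩ := exists_rt D.α (mul_ne_zero (inv_ne_zero (cf_ne D κ q₀)) hq₀)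
  let u : ι → I → E := fun i q => l ((cf D κ q)⁻¹ * vl D.t (dg D κ) (s i) (D.sp q))
  have hu : ∀ i, u i ∈ z.V κ := fun i => desc D hκ' (hs i) hl
  have huw : ∀ q, Wd (fun i => u i q) (w q) := fun q i i' => by
    simp only [u]
    rw [mul_comm, ← hl, mul_comm _ (w q i), ← hl, mul_left_comm, mul_left_comm (D.α _),
      mul_comm (D.α _), mul_comm (D.α _), hsw q i i']
  choose s' hs' hv' using fun i => (mem_iff D hκ').1 (map_mem_mapS D.α (hu i))
  have h1 : ∀ q, Wd (fun i => vl D.t (dg D κ) (s' i) (D.sp q))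
      fun i => vl D.t (dg D κ) (s i) (D.sp q) := fun q => by
    refine Wd.trans (fun i i' => ?_) (hsw q) ((hw q).imp fun i hi => (map_ne_zero D.α).2 hi)
    simp only [hv', mul_assoc, ← map_mul, huw q i i']
  have h2 : ∀ a, Wd (fun i => s' i a) fun i => s i a := fun a i i' => by
    have h3 := ((hs' i).mul (hs i')).add (((hs' i').mul (hs i)).smul (-1))
    rw [← e2] at h3
    have h4 := congrFun (eq_zero D hκ h3 fun q => by
      rw [e2, vl, hv_add, hv_C_mul, hv_mul ((hs' _).le _) ((hs _).le _),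
        hv_mul ((hs' _).le _) ((hs _).le _), neg_one_mul, add_neg_eq_zero]
      exact h1 q i i') a
    simpa [add_neg_eq_zero] using h4
  obtain ⟨μ, hμ⟩ := prop D.t _ s s' hs hs' h0 h2
  have h5 : ∀ i x, vl D.t (dg D κ) (s' i) x = μ * vl D.t (dg D κ) (s i) x := fun i x => by
    rw [vl, hμ, hv_C_mul, vl]
  have hμ0 : μ ≠ 0 := fun h => mul_ne_zero (cf_ne D κ q₀) ((map_ne_zero D.α).2 hl0)
    ((hv' i₀ q₀).symm.trans (by rw [h5, h, zero_mul]))
  have h6 : ∀ x, ∃ i, vl D.t (dg D κ) (s' i) x ≠ 0 := fun x =>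
    (h0 x).imp fun i hi => h5 i x ▸ mul_ne_zero hμ0 hi
  refine ⟨u, hu, fun q => (h6 (D.sp q)).imp fun i hi h => hi (by rw [hv', h, map_zero, mul_zero]),
    huw, fun σ hσ => ?_⟩
  obtain ⟨σ', h7, h8⟩ := (mem_iff D hκ).1 (map_mem_mapS D.α hσ)
  rw [e2] at h7 h8
  obtain ⟨i₁, hi₁⟩ := h6 (D.t.root, none)
  obtain ⟨τ, h9, h10, -⟩ := surj D.t _ s' hs' h6 σ' h7 (Pi.single i₁
      (vl D.t _ σ' (D.t.root, none) / vl D.t (dg D κ) (s' i₁) (D.t.root, none))) (by
    rw [Finset.sum_eq_single i₁ (fun i _ hi => by rw [Pi.single_eq_of_ne hi, zero_mul]) (by simp),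
      Pi.single_eq_same, div_mul_cancel₀ _ hi₁])
  obtain ⟨l', hl', hl1⟩ := exists_isRt D.α
  refine ⟨_, fun i => desc D hκ' (h9 i) hl', fun q => ?_⟩
  have h11 : ∑ i, D.α (u i q) * ((cf D κ q)⁻¹ * vl D.t (dg D κ) (τ i) (D.sp q)) = D.α (σ q) * 1 := by
    refine mul_left_cancel₀ (cf_ne D (κ + κ) q) ?_
    rw [mul_one, ← h8, vl, ← h10, hv_sum, Finset.mul_sum]
    refine Finset.sum_congr rfl fun i _ => ?_
    rw [hv_mul ((h9 _).le _) ((hs' _).le _), c2]
    have := hv' i q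
    rw [vl] at this
    rw [this, vl]
    field_simp [cf_ne D κ q]
  have h12 := congrArg l' h11
  rw [map_sum, hl', hl1, mul_one] at h12
  rw [← h12]
  exact Finset.sum_congr rfl fun i _ => by rw [hl', mul_comm]

end TD

/-- auxiliary projective lines -/
def ioP (io : J → Type) (P : Type) : J ⊕ P → Type
  | Sum.inl j => io j
  | Sum.inr _ => Fin 2

variable {P : Type} [Fintype P] [DecidableEq P]

instance : ∀ x, Fintype (ioP io P x)
  | Sum.inl j => inferInstanceAs (Fintype (io j))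
  | Sum.inr _ => inferInstanceAs (Fintype (Fin 2))

instance : ∀ x, DecidableEq (ioP io P x)
  | Sum.inl j => inferInstanceAs (DecidableEq (io j))
  | Sum.inr _ => inferInstanceAs (DecidableEq (Fin 2))

/-- degree one on the auxiliary factors -/
def dP (d : J → ℕ) (P : Type) : J ⊕ P → ℕ := Sum.elim d fun _ => 1

/-- the main part of a point -/
def mn {R : Type} (y : Pnt (ioP io P) R) : Pnt io R := fun j => y (Sum.inl j)

/-- a coordinate of the auxiliary part of a point -/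
def ax {R : Type} (y : Pnt (ioP io P) R) (p : P) (i : Fin 2) : R := y (Sum.inr p) i

theorem dot_elim (κ : J → ℕ) (κ' : P → ℕ) (e : J ⊕ P → ℕ) : dot (Sum.elim κ κ') e =
    dot κ (fun j => e (Sum.inl j)) + ∑ p, κ' p * e (Sum.inr p) := by
  simp only [dot, Fintype.sum_sum_type, Sum.elim_inl, Sum.elim_inr]

theorem isS_sb {k : Type} [Field k] [Algebra ℂ k] {t : Tr k (J ⊕ P) (ioP io P)} (ht : t.OK)
    {Q : MvPolynomial (Vr io) ℂ} {κ : J → ℕ} (h : MH Q κ) :
    ∃ s, IsS t (fun a => dot (Sum.elim κ 0) (t.vd a)) s ∧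
      ∀ x, vl t (fun a => dot (Sum.elim κ 0) (t.vd a)) s x = pv (mn (t.ev x)) Q := by
  have h1 : ∀ v, (∑ j, (κ j : ℤ) * t.vd v (Sum.inl j)) = (dot (Sum.elim κ 0) (t.vd v) : ℕ) :=
    fun v => by rw [dot_elim]; simp [dot]
  have h2 := fun v => (MZ.of_MH h).sb (g := fun j => t.vg v (Sum.inl j))
    fun j => ht.natDegree_le v (Sum.inl j)
  simp only [h1] at h2
  have h3 : ∀ x, vl t (fun a => dot (Sum.elim κ 0) (t.vd a))
      (fun v => sb (fun j => t.vg v (Sum.inl j)) Q) x = pv (mn (t.ev x)) Q := fun x =>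
    (ev_eq_hv _ _ _).symm.trans ((h2 x.1).2 x.2)
  exact ⟨_, isS_of_ev (fun y => pv (mn y) Q) ht (fun v => DL_nat.1 (h2 v).1) h3, h3⟩

/-- a map which is given in charts on the target `T`, near the curves of degree `d` -/
structure Cht {A : Type} (T : Tgt io A) (d : J → ℕ) (Λ ι : Type) where
  /-- the degrees -/
  m : Λ → J → ℕ
  /-- the formulas -/
  q : Λ → ι → MvPolynomial (Vr io) ℂ
  hom : ∀ l a, MH (q l a) (m l)
  cov : ∀ (E : Type) [Field E] [Algebra ℂ E] [IsAlgClosed E] (t : Tr E J io), t.OK →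
    t.deg = d → (∀ x, T.On (t.ev x)) → ∀ x, ∃ l a, pv (t.ev x) (q l a) ≠ 0
  rk : ∀ (E : Type) [Field E] [Algebra ℂ E] (y : Pnt io E), NZ y → T.On y → ∀ l l',
    Wd (fun a => pv y (q l a)) fun a => pv y (q l' a)

/-- the multidegree used for finding three branches -/
def k2 (J P : Type) : J ⊕ P → ℕ := Sum.elim (fun _ => 2) 0

variable {A Λ ι : Type} [Fintype A] [Fintype Λ] [Fintype ι] {T : Tgt io A}

theorem cfg_lift (G : Cht T d Λ ι) {N : ℕ} {z : Cfg (ioP io P) I E} (h : TL (dP d P) N z)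
    (hT : ∀ q, T.On (mn (z.y q))) (hk : ∀ a j, T.k a j ≤ N) (hN : 2 ≤ N)
    (hN' : 2 * ∑ l, dot (G.m l) d ≤ N) {I₀ : Type} (g : I₀ → I)
    (hg : ∀ u ∈ z.V (k2 J P), (∀ a, u (g a) = 0) → u = 0)
    (hP : ∀ a : Fin 3 → I₀, (∀ l l', l < l' →
      ∃ u ∈ z.V (k2 J P), u (g (a l)) = 0 ∧ u (g (a l')) ≠ 0) → ∃ p, ax (z.y (g (a 0))) p 0 = 0 ∧
      ax (z.y (g (a 1))) p 1 = 0 ∧ ax (z.y (g (a 2))) p 0 = ax (z.y (g (a 2))) p 1) :
    ∃ (κ : P → ℕ) (u : ι → I → E), (∀ p, κ p ≤ ∑ l, dot (G.m l) d) ∧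
      (∀ i, u i ∈ z.V (Sum.elim 0 κ)) ∧ (∀ q, ∃ i, u i q ≠ 0) ∧
      (∀ q, ∃ l, (∃ i, pv (mn (z.y q)) (G.q l i) ≠ 0) ∧
        Wd (fun i => u i q) fun i => pv (mn (z.y q)) (G.q l i)) ∧
      ∀ σ ∈ z.V (Sum.elim (0 : J → ℕ) κ + Sum.elim (0 : J → ℕ) κ), ∃ τ : ι → I → E,
        (∀ i, τ i ∈ z.V (Sum.elim 0 κ)) ∧ ∀ q, ∑ i, τ i q * u i q = σ q := by
  classical
  obtain ⟨k, _, _, _, ⟨D⟩⟩ := h
  have hsp : ∀ {Q : MvPolynomial (Vr io) ℂ} {κ : J → ℕ}, MH Q κ → ∀ q, ∃ c : k, c ≠ 0 ∧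
      pv (mn (D.t.ev (D.sp q))) Q = c * D.α (pv (mn (z.y q)) Q) := fun {Q κ} hQ q => by
    refine ⟨∏ j, D.c q (Sum.inl j) ^ (κ j : ℤ),
      Finset.prod_ne_zero_iff.2 fun j _ => zpow_ne_zero _ (D.c_ne q _), ?_⟩
    rw [D.ev_sp, ← pv_map]
    exact (MZ.of_MH hQ).pv_scl (fun j => D.c_ne q (Sum.inl j)) _
  have hOn : ∀ x, T.On (mn (D.t.ev x)) := fun x a => by
    obtain ⟨s, h1, h2⟩ := isS_sb D.ok (T.hom a)
    rw [← h2, eq_zero D (κ := Sum.elim (T.k a) 0) (by rintro (j | p); exacts [hk a j, N.zero_le])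
      h1 fun q => ?_]
    · exact hv_zero _ _
    · obtain ⟨c, -, hc⟩ := hsp (T.hom a) q
      rw [h2, hc, hT q a, map_zero, mul_zero]
  have hcov : ∀ x, ∃ l i, pv (mn (D.t.ev x)) (G.q l i) ≠ 0 := fun x => by
    obtain ⟨t₀, a1, a2, -, -, a5, a6⟩ : ∃ t₀ : Tr k J io, t₀.OK ∧
        (t₀.deg = fun j => D.t.deg (Sum.inl j)) ∧ _ ∧ _ ∧ (∀ x, ∃ y, t₀.ev y = mn (D.t.ev x)) ∧
        ∀ y, ∃ x, t₀.ev y = mn (D.t.ev x) := exists_rs (Sum.inl : J → J ⊕ P) D.t D.ok
    obtain ⟨y, hy⟩ := a5 x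
    have := G.cov k t₀ a1 (by rw [a2, D.deg]; rfl)
      (fun y => (a6 y).elim fun x hx => by rw [hx]; exact hOn x) y
    rwa [hy] at this
  choose S hS hSv using fun l i => isS_sb D.ok (G.hom l i)
  obtain ⟨l₀, hl₀⟩ := hcov (D.t.root, none)
  have hrk : ∀ x l l', Wd (fun i => pv (mn (D.t.ev x)) (G.q l i))
      fun i => pv (mn (D.t.ev x)) (G.q l' i) := fun x =>
    G.rk k _ (fun j => D.ok.ev_ne x (Sum.inl j)) (hOn x)
  obtain ⟨δ, s, b1, b2, b3, b4, -⟩ := fact D.t _ S hS (by simpa only [hSv] using hcov)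
    (by simpa only [hSv] using hrk) _ hl₀ (by simpa only [hSv] using hrk _ l₀)
  have hk2 : ∀ j, k2 J P j ≤ N := by rintro (j | p); exacts [hN, N.zero_le]
  have key : ∀ a, ∃ w : P → ℕ, (∀ p, w p ≤ δ a) ∧
      ∀ b, ∑ p, w p * D.t.vd b (Sum.inr p) = if a = b then δ a else 0 := by
    intro a
    by_cases h0 : δ a = 0
    · exact ⟨0, fun _ => Nat.zero_le _, fun b => by simp [h0]⟩
    have h2 : 2 ≤ dg D (k2 J P) a := by
      obtain ⟨l, hl⟩ := b4 a
      rw [dot_elim] at hl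
      simp only [Pi.zero_apply, zero_mul, Finset.sum_const_zero, add_zero] at hl
      obtain ⟨j, -, hj⟩ := Finset.exists_ne_zero_of_sum_ne_zero
        (show dot (G.m l) (fun j => D.t.vd a (Sum.inl j)) ≠ 0 by omega)
      refine le_trans ?_ (Finset.single_le_sum (f := fun j => k2 J P j * D.t.vd a j)
        (fun _ _ => Nat.zero_le _) (Finset.mem_univ (Sum.inl j)))
      exact Nat.le_mul_of_pos_right _ (Nat.pos_of_ne_zero (right_ne_zero_of_mul hj))
    obtain ⟨q, c1, c2⟩ := exists_three (fun b => D.sp (g b)) (fun σ hσ h => eq_zero D hk2 hσ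
      fun q => by
        by_contra hq
        obtain ⟨l, hl, hl0⟩ := exists_rt D.α (mul_ne_zero (inv_ne_zero (cf_ne D (k2 J P) q)) hq)
        exact hl0 (congrFun (hg _ (desc D hk2 hσ hl) fun b => by
          rw [h b, mul_zero, map_zero]) q)) a h2
    obtain ⟨p, e0, e1, e2⟩ := hP q fun l l' hl => by
      obtain ⟨σ, d1, d2, d3⟩ := c2 l l' hl
      obtain ⟨r, hr, hr0⟩ := exists_rt D.α (mul_ne_zero (inv_ne_zero (cf_ne D (k2 J P) _)) d3)
      exact ⟨_, desc D hk2 d1 hr, by rw [d2, mul_zero, map_zero], hr0⟩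
    have f : ∀ b i, ax (D.t.ev (D.sp b)) p i = D.c b (Sum.inr p) * D.α (ax (z.y b) p i) :=
      fun b i => by rw [D.ev_sp]; rfl
    have f0 : ax (D.t.ev (D.sp (g (q 0)))) p 0 = 0 := by rw [f, e0, map_zero, mul_zero]
    have f1 : ax (D.t.ev (D.sp (g (q 1)))) p 1 = 0 := by rw [f, e1, map_zero, mul_zero]
    have f2 : ax (D.t.ev (D.sp (g (q 2)))) p 0 = ax (D.t.ev (D.sp (g (q 2)))) p 1 := by
      rw [f, f, e2]
    have f3 : ∀ x, ax (D.t.ev x) p 0 = 0 → ax (D.t.ev x) p 1 = 0 → False := fun x u v =>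
      (Fin.exists_fin_two (p := fun i => ax (D.t.ev x) p i ≠ 0)).1 (D.ok.ev_ne x (Sum.inr p))
        |>.elim (fun h => h u) fun h => h v
    have f4 : ∀ l l' : Fin 3, D.t.ev (D.sp (g (q l))) (Sum.inr p) =
        D.t.ev (D.sp (g (q l'))) (Sum.inr p) →
        ∀ i, ax (D.t.ev (D.sp (g (q l)))) p i = ax (D.t.ev (D.sp (g (q l')))) p i :=
      fun _ _ h i => congrFun h i
    obtain ⟨g1, g2⟩ := vd_of_three D.ok (j := Sum.inr p) (by rw [D.deg]; rfl) a
      (fun l => D.sp (g (q l))) c1 fun l l' h => by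
        have h' := f4 l l' h
        fin_cases l <;> fin_cases l' <;> first
          | rfl
          | exact (f3 _ f0 ((h' 1).trans f1)).elim
          | exact (f3 _ f0 ((h' 1).symm.trans f1)).elim
          | exact (f3 _ f0 ((h' 1).trans (f2.symm.trans ((h' 0).symm.trans f0)))).elim
          | exact (f3 _ f0 ((h' 1).symm.trans (f2.symm.trans ((h' 0).trans f0)))).elim
          | exact (f3 _ ((h' 0).trans (f2.trans ((h' 1).symm.trans f1))) f1).elim
          | exact (f3 _ ((h' 0).symm.trans (f2.trans ((h' 1).trans f1))) f1).elim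
    refine ⟨Pi.single p (δ a), fun p' => by rw [Pi.single_apply]; split_ifs <;> simp, fun b => ?_⟩
    rw [Finset.sum_eq_single p (fun p' _ h => by rw [Pi.single_eq_of_ne h, zero_mul]) (by simp),
      Pi.single_eq_same]
    split_ifs with h
    · rw [← h, g1, mul_one]
    · rw [g2 b (Ne.symm h), mul_zero]
  choose w hw hw' using key
  have hb : ∀ p, ∑ a, w a p ≤ ∑ l, dot (G.m l) d := fun p => by
    have h1 : ∀ l, dot (G.m l) d = ∑ a, dot (Sum.elim (G.m l) 0) (D.t.vd a) := fun l => by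
      rw [sum_dot_vd, D.deg, dot_elim]; simp [dP]
    simp only [h1]
    rw [Finset.sum_comm]
    refine Finset.sum_le_sum fun a _ => (hw a p).trans ?_
    obtain ⟨l, hl⟩ := b4 a
    exact hl.trans (Finset.single_le_sum (f := fun l => dot (Sum.elim (G.m l) 0) (D.t.vd a))
      (fun _ _ => Nat.zero_le _) (Finset.mem_univ l))
  obtain rfl : δ = dg D (Sum.elim 0 fun p => ∑ a, w a p) := _root_.funext fun b => by
    simp only [dg, dot_elim, Finset.sum_mul]
    rw [Finset.sum_comm]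
    simp [hw', dot]
  choose l hl using fun q => hcov (D.sp q)
  have hl' : ∀ q, ∃ i, pv (mn (z.y q)) (G.q (l q) i) ≠ 0 := fun q => (hl q).imp fun i hi h => by
    obtain ⟨c, -, hc⟩ := hsp (G.hom (l q) i) q
    exact hi (by rw [hc, h, map_zero, mul_zero])
  obtain ⟨u, u1, u2, u3, u4⟩ := desc_tuple D (by
      rintro (j | p)
      · exact N.zero_le
      · exact le_trans (by have := hb p; simp only [Pi.add_apply, Sum.elim_inr]; omega) hN')
    b1 b2 hl' fun q => by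
      have h1 := b3 (D.sp q) (l q)
      simp only [hSv] at h1
      intro i i'
      have h2 := h1 i i'
      have h3 : ∀ i, pv (mn (D.t.ev (D.sp q))) (G.q (l q) i) =
          (∏ j, D.c q (Sum.inl j) ^ (G.m (l q) j : ℤ)) * D.α (pv (mn (z.y q)) (G.q (l q) i)) :=
        fun i => by
          rw [D.ev_sp, ← pv_map]
          exact (MZ.of_MH (G.hom _ i)).pv_scl (fun j => D.c_ne q (Sum.inl j)) _
      simp only [h3] at h2
      rw [mul_left_comm, mul_left_comm (vl _ _ _ _)] at h2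
      exact mul_left_cancel₀ (Finset.prod_ne_zero_iff.2 fun j _ => zpow_ne_zero _ (D.c_ne q _)) h2
  exact ⟨_, u, hb, u1, u2, fun q => ⟨l q, hl' q, u3 q⟩, u4⟩

/-- the auxiliary factors contain a coordinate for every triple of distinct points -/
def Aux (ξ : Dat (ioP io P) (dP d P) I K) {I₀ : Type} (g : I₀ → I) : Prop :=
  ∀ a : Fin 3 → I₀, (∀ l l', l < l' → ξ.x (g (a l)) ≠ ξ.x (g (a l'))) → ∃ p,
    ax (ξ.pt (ξ.x (g (a 0)))) p 0 = 0 ∧ ax (ξ.pt (ξ.x (g (a 1)))) p 1 = 0 ∧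
    ax (ξ.pt (ξ.x (g (a 2)))) p 0 = ax (ξ.pt (ξ.x (g (a 2)))) p 1

theorem lt_self {ξ : Dat io d I K} {κ : J → ℕ} {σ : K[X]} (h : ξ.Nrm κ) {V : RZ ℂ K}
    (hσ : σ.natDegree ≤ dot κ d)
    (hq : ∀ q, V.v (hv (dot κ d) σ (ξ.x q)) < (lw κ (ξ.pt (ξ.x q))).val V) (t : Option K) :
    V.v (hv (dot κ d) σ t) < (lw κ (ξ.pt t)).val V := by
  have := lt_of_nrm h (AlgHom.id ℂ K) V rfl hσ hq t
  rwa [dat_map_id, show σ.map (AlgHom.id ℂ K : K →+* K) = σ from Polynomial.map_id] at this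

/-- forms whose reductions generate have no common zero, in the valuative sense -/
theorem exists_ge {ξ : Dat io d I K} {κ : J → ℕ} (h : ξ.Nrm κ) (h2 : ξ.Nrm (κ + κ))
    {p : Pl ℂ K ℂ E} (hs : Function.Surjective p.φ) {F : ι → K[X]}
    (hF : ∀ i, (F i).natDegree ≤ dot κ d)
    (hF' : ∀ i q, p.V.v (hv (dot κ d) (F i) (ξ.x q)) ≤ (lw κ (ξ.pt (ξ.x q))).val p.V)
    (hg : ∀ σ ∈ (ξ.cfg.red p).V (κ + κ), ∃ τ : ι → I → E, (∀ i, τ i ∈ (ξ.cfg.red p).V κ) ∧ ∀ q,
      ∑ i, τ i q * p.r (ch p.V κ (ξ.pt (ξ.x q)) * hv (dot κ d) (F i) (ξ.x q)) = σ q)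
    {L : Type} [Field L] [Algebra ℂ L] (α : K →ₐ[ℂ] L) (W : RZ ℂ L)
    (hW : cm (α : K →+* L) (alg_ov α) W = p.V) (t : Option L) :
    ∃ i, (lw κ ((ξ.map α).pt t)).val W ≤ W.v (hv (dot κ d) ((F i).map (α : K →+* L)) t) := by
  obtain ⟨σ, a1, a2, a3⟩ := exists_mono ξ (κ + κ) α W t
  obtain ⟨τ, b1, b2⟩ := hg _ ((mem_red_iff hs).2 ⟨σ, a1, fun q => a2 _ _, fun _ => rfl⟩)
  choose Θ c1 c2 c3 using fun i => (mem_red_iff hs).1 (b1 i)
  have e1 : (∑ i, Θ i * F i).natDegree ≤ dot (κ + κ) d := by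
    rw [dot_add']
    exact natDegree_sum_le_of_forall_le _ _ fun i _ =>
      natDegree_mul_le.trans (add_le_add (c1 i) (hF i))
  have e2 : ∀ q, ch p.V (κ + κ) (ξ.pt (ξ.x q)) * hv (dot (κ + κ) d) (∑ i, Θ i * F i) (ξ.x q) =
      ∑ i, ch p.V κ (ξ.pt (ξ.x q)) * hv (dot κ d) (Θ i) (ξ.x q) *
        (ch p.V κ (ξ.pt (ξ.x q)) * hv (dot κ d) (F i) (ξ.x q)) := fun q => by
    rw [dot_add', hv_sum, ch_add, Finset.mul_sum]
    exact Finset.sum_congr rfl fun i _ => by rw [hv_mul (c1 i) (hF i)]; ring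
  have e3 := lt_of_nrm h2 α W hW (σ := σ + C (-1) * ∑ i, Θ i * F i)
    ((natDegree_add_le _ _).trans (max_le a1 ((natDegree_C_mul_le _ _).trans e1))) (fun q => by
      have m1 := ch_mem.2 (a2 p.V (ξ.x q))
      have m2 := fun i => mul_mem (ch_mem.2 (c2 i q)) (ch_mem.2 (hF' i q))
      rw [← ch_lt, hv_add, hv_C_mul, neg_one_mul, ← sub_eq_add_neg, mul_sub, e2,
        ← Pl.r_eq_zero (sub_mem m1 (sum_mem fun i _ => m2 i)),
        Pl.r_sub m1 (sum_mem fun i _ => m2 i), r_sum _ fun i _ => m2 i, ← b2 q, sub_eq_zero]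
      exact Finset.sum_congr rfl fun i _ => by
        rw [Pl.r_mul (ch_mem.2 (c2 i q)) (ch_mem.2 (hF' i q)), c3]) t
  by_contra hc
  push Not at hc
  have e4 : W.v (hv (dot (κ + κ) d) ((∑ i, Θ i * F i).map (α : K →+* L)) t) <
      (lw (κ + κ) ((ξ.map α).pt t)).val W := by
    rw [Polynomial.map_sum, hv_sum]
    refine Valuation.map_sum_lt _ (val_ne _ _) fun i _ => ?_
    rw [Polynomial.map_mul, dot_add', hv_mul (natDegree_map_le.trans (c1 i))
      (natDegree_map_le.trans (hF i)), map_mul, val_lw_add]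
    exact mul_lt_mul_of_le_of_lt_of_nonneg_of_pos (le_of_nrm h α W hW (c1 i) (c2 i) t) (hc i)
      zero_le (val_pos _ _)
  rw [Polynomial.map_add, Polynomial.map_mul, map_C, hv_add, hv_C_mul, map_neg, map_one,
    neg_one_mul, ← sub_eq_add_neg] at e3
  have := Valuation.map_add_lt _ e3 e4
  rw [sub_add_cancel, a3] at this
  exact lt_irrefl _ this

theorem exists_lift (G : Cht T d Λ ι) {N : ℕ} {ξ : Dat (ioP io P) (dP d P) I K} (h : ξ.NrmUp N)
    {p : Pl ℂ K ℂ E} (hs : Function.Surjective p.φ) (hT : ∀ q, T.On (mn ((ξ.cfg.red p).y q)))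
    (hk : ∀ a j, T.k a j ≤ N) (hN : 2 ≤ N) (hN' : 2 * ∑ l, dot (G.m l) d ≤ N) {I₀ : Type}
    [Fintype I₀] (g : I₀ → I) (hg : (ξ.res g).Nrm (k2 J P)) (hA : Aux ξ g) :
    ∃ (κ : P → ℕ) (F : ι → K[X]), (∀ x, κ x ≤ ∑ l, dot (G.m l) d) ∧
      (∀ i, (F i).natDegree ≤ dot (Sum.elim 0 κ) (dP d P)) ∧
      (∀ (L : Type) [Field L] [Algebra ℂ L] (α : K →ₐ[ℂ] L) (W : RZ ℂ L),
        cm (α : K →+* L) (alg_ov α) W = p.V → ∀ t,
        (∀ i, W.v (hv (dot (Sum.elim 0 κ) (dP d P)) ((F i).map (α : K →+* L)) t) ≤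
          (lw (Sum.elim 0 κ) ((ξ.map α).pt t)).val W) ∧
        ∃ i, (lw (Sum.elim 0 κ) ((ξ.map α).pt t)).val W ≤
          W.v (hv (dot (Sum.elim 0 κ) (dP d P)) ((F i).map (α : K →+* L)) t)) ∧
      ∀ q, ∃ l, (∃ i, pv (mn ((ξ.cfg.red p).y q)) (G.q l i) ≠ 0) ∧
        Wd (fun i => p.r (ch p.V (Sum.elim 0 κ) (ξ.pt (ξ.x q)) *
          hv (dot (Sum.elim 0 κ) (dP d P)) (F i) (ξ.x q)))
          fun i => pv (mn ((ξ.cfg.red p).y q)) (G.q l i) := by
  obtain ⟨κ, u, a1, a2, -, a4, a5⟩ := cfg_lift G (tl_red h p) hT hk hN hN' g (fun u hu h0 => by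
      obtain ⟨σ, h1, h2, h3⟩ := (mem_red_iff hs).1 hu
      funext q
      rw [h3, Pi.zero_apply, Pl.r_eq_zero (ch_mem.2 (h2 q)), ch_lt]
      exact lt_self hg h1 (fun a => ch_lt.1 ((Pl.r_eq_zero (ch_mem.2 (h2 (g a)))).1
        ((h3 (g a)).symm.trans (h0 a)))) _) fun a ha => by
      obtain ⟨x, e0, e1, e2⟩ := hA a fun l l' hl e => by
        obtain ⟨u, hu, h0, h1⟩ := ha l l' hl
        obtain ⟨σ, -, -, h3⟩ := (mem_red_iff hs).1 hu
        exact h1 (by rw [h3, ← e, ← h3, h0])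
      have f : ∀ q i, ax ((ξ.cfg.red p).y q) x i =
          p.r (ξ.cfg.nrm p.V q (Sum.inr x) * ax (ξ.pt (ξ.x q)) x i) := fun _ _ => rfl
      exact ⟨x, by rw [f, e0, mul_zero, Pl.r_zero], by rw [f, e1, mul_zero, Pl.r_zero],
        by rw [f, f, e2]⟩
  have k1 : ∀ j, (Sum.elim (0 : J → ℕ) κ + Sum.elim (0 : J → ℕ) κ) j ≤ N := by
    rintro (j | x)
    · exact N.zero_le
    · exact le_trans (by have := a1 x; simp only [Pi.add_apply, Sum.elim_inr]; omega) hN'
  have k0 : ∀ j, Sum.elim (0 : J → ℕ) κ j ≤ N := fun j => le_trans (Nat.le_add_right _ _) (k1 j)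
  choose F c1 c2 c3 using fun i => (mem_red_iff hs).1 (a2 i)
  refine ⟨κ, F, a1, c1, fun L _ _ α W hW t => ⟨fun i => le_of_nrm (h _ k0) α W hW (c1 i) (c2 i) t,
    exists_ge (h _ k0) (h _ k1) hs c1 c2 (by simpa only [c3] using a5) α W hW t⟩, fun q => ?_⟩
  simpa only [c3] using a4 q

end Crest.Agent.X262.Emb96
end
end

-- ▼ part X262/Emb96/Axd

/-!
# Row 262, EMB, lifting (helper96), part 4: the auxiliary datum

`mnD` (forget the auxiliary factors), `aux` (one coordinate for every triple of distinct points),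
`exists_aux` (normed auxiliary data exist over a finite extension).
-/

set_option autoImplicit false
set_option linter.unusedSectionVars false

noncomputable section

namespace Crest.Agent.X262.Emb96

open Polynomial Crest.Agent.X277 Crest.Agent.X277.BD Crest.Agent.X262.Vb
open Crest.Agent.X262.Bub96 Crest.Agent.X262.Bub96.Tr Crest.Agent.X262.Tree87

variable {J : Type} [Fintype J] [DecidableEq J] {io : J → Type} [∀ j, Fintype (io j)]
  [∀ j, DecidableEq (io j)] {d : J → ℕ} {I : Type}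
  {K E : Type} [Field K] [Algebra ℂ K] [Field E] [Algebra ℂ E]

section mn

variable {P : Type} [Fintype P] [DecidableEq P]

/-- forget the auxiliary factors -/
def mnD (ξ : Dat (ioP io P) (dP d P) I K) : Dat io d I K where
  f j := ξ.f (Sum.inl j)
  x := ξ.x
  cp := ⟨fun j => ξ.cp.1 (Sum.inl j), fun j => ξ.cp.2.1 (Sum.inl j), fun j => ξ.cp.2.2 (Sum.inl j)⟩

theorem val_lw_elim (V : RZ ℂ K) (κ : J → ℕ) (κ' : P → ℕ) (y : Pnt (ioP io P) K) :
    (lw (Sum.elim κ κ') y).val V =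
      (lw κ (mn y)).val V * ∏ x, (ln y (Sum.inr x)).val V ^ κ' x := by
  rw [val_lw', val_lw', Fintype.prod_sum_type]; rfl

theorem dot_dP (κ : J → ℕ) (κ' : P → ℕ) : dot (Sum.elim κ κ') (dP d P) = dot κ d + ∑ x, κ' x := by
  rw [dot_elim]; simp [dP]

theorem nrm_mnD {ξ : Dat (ioP io P) (dP d P) I K} {κ : J → ℕ} :
    (mnD ξ).Nrm κ ↔ ξ.Nrm (Sum.elim κ 0) := by
  simp only [Dat.Nrm, dot_dP, val_lw_elim, Pi.zero_apply, pow_zero, Finset.prod_const_one, mul_one,
    Finset.sum_const_zero, add_zero]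
  rfl

end mn

/-- triples of distinct points -/
abbrev Tp (ξ : Dat io d I K) : Type := {a : Fin 3 → I // ∀ l l', l < l' → ξ.x (a l) ≠ ξ.x (a l')}

/-- the coordinate with values `0, ∞, 1` at the points `u, v, w` -/
def crd (u v w : Option K) : Fin 2 → K[X] := ![C (hv 1 (lin v) w) * lin u, C (hv 1 (lin u) w) * lin v]

omit [Algebra ℂ K] [Algebra ℂ E] in
theorem lin_map (γ : K →+* E) (u : Option K) : (lin u).map γ = lin (u.map γ) := by
  rcases u with _ | u <;> simp [lin]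

omit [Algebra ℂ K] [Algebra ℂ E] in
theorem crd_ne (γ : K →+* E) {u v w : Option K} (h1 : u ≠ v) (h2 : u ≠ w) (h3 : v ≠ w)
    (t : Option E) : ∃ i, hv 1 ((crd u v w i).map γ) t ≠ 0 := by
  by_contra hc
  push Not at hc
  have e0 := hc 0
  have e1 := hc 1
  simp only [crd, Matrix.cons_val_zero, Matrix.cons_val_one, Polynomial.map_mul, map_C, hv_C_mul,
    lin_map, mul_eq_zero, map_eq_zero, hv_lin] at e0 e1
  exact h1 (Option.map_injective γ.injective
    ((e0.resolve_left h3.symm).symm.trans (e1.resolve_left h2.symm)))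

/-- one coordinate for every triple of distinct points -/
def aux (ξ : Dat io d I K) : Dat (ioP io (Tp ξ)) (dP d (Tp ξ)) I K where
  f := fun
    | Sum.inl j => ξ.f j
    | Sum.inr a => crd (ξ.x (a.1 0)) (ξ.x (a.1 1)) (ξ.x (a.1 2))
  x := ξ.x
  cp := by
    have h := fun {E : Type} [Field E] (γ : K →+* E) (a : Tp ξ) =>
      crd_ne γ (a.2 0 1 (by decide)) (a.2 0 2 (by decide)) (a.2 1 2 (by decide))
    refine ⟨?_, ?_, ?_⟩ <;> rintro (j | a)
    · exact ξ.cp.1 j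
    · exact Fin.forall_fin_two.2 ⟨(natDegree_C_mul_le _ _).trans (natDegree_lin _),
        (natDegree_C_mul_le _ _).trans (natDegree_lin _)⟩
    · exact ξ.cp.2.1 j
    · have := h (RingHom.id K) a none
      simp only [Polynomial.map_id] at this
      exact this
    · exact ξ.cp.2.2 j
    · exact span_eq_top (ι := Fin 2) (algebraMap K (AlgebraicClosure K)) fun x => h _ a (some x)

theorem aux_aux [Fintype I] {I' : Type} {ξ : Dat io d I K} [Fintype (Tp ξ)] [DecidableEq (Tp ξ)]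
    {η : Dat (ioP io (Tp ξ)) (dP d (Tp ξ)) I' E} {g : I → I'} {θ : K →ₐ[ℂ] E}
    (h : η.res g = (aux ξ).map θ) : Aux η g := by
  intro a ha
  have hx : ∀ q, η.x (g q) = (ξ.x q).map θ := fun q => congrFun (congrArg Dat.x h) q
  have hp : ∀ q x i, ax (η.pt (η.x (g q))) x i = θ (ax ((aux ξ).pt (ξ.x q)) x i) := fun q x i => by
    rw [show η.pt = ((aux ξ).map θ).pt from congrArg Dat.pt h, hx, pt_map]; rfl
  refine ⟨⟨a, fun l l' hl e => ha l l' hl (by rw [hx, hx, e])⟩, ?_, ?_, ?_⟩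
  · rw [hp, map_eq_zero]
    exact (hv_C_mul _ _ _ _).trans (mul_eq_zero_of_right _ ((hv_lin _ _).2 rfl))
  · rw [hp, map_eq_zero]
    exact (hv_C_mul _ _ _ _).trans (mul_eq_zero_of_right _ ((hv_lin _ _).2 rfl))
  · rw [hp, hp]
    exact congrArg θ ((hv_C_mul _ _ _ _).trans ((mul_comm _ _).trans (hv_C_mul _ _ _ _).symm))

/-- normed auxiliary data exist over a finite extension -/
theorem exists_aux {M : Type} [Fintype M] (ξ : Dat io d M K) (N : ℕ) :
    ∃ (L : Type) (_ : Field L) (_ : Algebra ℂ L) (_ : Algebra K L) (_ : IsScalarTower ℂ K L)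
      (_ : FiniteDimensional K L) (P I I₀ : Type) (_ : Fintype P) (_ : DecidableEq P)
      (_ : Fintype I) (_ : Fintype I₀) (g : I₀ → I) (m : M → I)
      (η : Dat (ioP io P) (dP d P) I L), (mnD η).res m = ξ.map (IsScalarTower.toAlgHom ℂ K L) ∧
      η.NrmUp N ∧ (η.res g).Nrm (k2 J P) ∧ Aux η g := by
  classical
  obtain ⟨K₁, _, _, _, _, _, n₁, η₁, a1, a2⟩ := exists_nrm ξ 2
  obtain ⟨L, _, _, _, _, _, n, η, b1, b2⟩ := exists_nrm (aux η₁) N
  let _ : Algebra K L := ((algebraMap K₁ L).comp (algebraMap K K₁)).toAlgebra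
  have : IsScalarTower K K₁ L := IsScalarTower.of_algebraMap_eq fun _ => rfl
  have : IsScalarTower ℂ K L := IsScalarTower.of_algebraMap_eq fun c => by
    rw [IsScalarTower.algebraMap_apply ℂ K₁ L, IsScalarTower.algebraMap_apply ℂ K K₁]; rfl
  refine ⟨L, inferInstance, inferInstance, inferInstance, inferInstance, Module.Finite.trans K₁ L,
    Tp η₁, _, _, inferInstance, inferInstance, inferInstance, inferInstance, Sum.inl,
    fun q => Sum.inl (Sum.inl q), η, ?_, b2, ?_, aux_aux b1⟩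
  · have h1 : (mnD η).res Sum.inl = η₁.map (IsScalarTower.toAlgHom ℂ K₁ L) := congrArg mnD b1
    have h2 := congrArg (Dat.map (IsScalarTower.toAlgHom ℂ K₁ L)) a1
    rw [dat_map_map] at h2
    exact (congrArg (Dat.res Sum.inl) h1).trans h2
  · rw [b1]
    have h1 : (mnD (aux η₁)).Nrm fun _ => 2 := a2 _ fun _ => le_rfl
    exact nrm_map' (nrm_mnD.1 h1) _

end Crest.Agent.X262.Emb96
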