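import Crest.Agent.X262.Emb11.Defs
import Crest.Agent.X262.Vb37.Univ
import Crest.Agent.X262.Bub96.NormB
import Crest.Agent.X262.Tr89.Pb
import Crest.Agent.X262.Emb71.Fn
import Crest.Agent.X262.Emb96.Axd

-- ▼ part X262/Emb43/Univ
section

/-!
# Row 262, road B, EMB (helper43): the universal datum with one more factor

* `Fr k u`   : `F = k(u)` is purely transcendental; `exists_fr`, `Fr.sub`;
* `cf`, `ext` : the generic forms of the new factor and the extended datum;
* `rn_sq`    : degrees in a commutative square;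
* `univStmt : Emb.UnivStmt`.
-/

set_option autoImplicit false
set_option linter.unusedSectionVars false
set_option linter.style.haveILetI false

noncomputable section

namespace Crest.Agent.X262.Emb43

open Crest.Agent.X277 Crest.Agent.X277.BD Polynomial
open Crest.Agent.X262.Vb Crest.Agent.X262.Emb
open Crest.Agent.X262.Div (rn)
open IntermediateField (adjoin)
open Set (range)
open List (replicate)

/-- `F = k(u)` is purely transcendental -/
structure Fr (k : Type) {F : Type} [Field k] [Field F] [Algebra k F] {m : ℕ} (u : Fin m → F) :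
    Prop where
  ind : AlgebraicIndependent k u
  gen : adjoin k (range u) = ⊤

theorem exists_fr (k : Type) [Field k] [Algebra ℂ k] (m : ℕ) : ∃ (F : Type) (_ : Field F)
    (_ : Algebra ℂ F) (_ : Algebra k F) (_ : IsScalarTower ℂ k F) (u : Fin m → F), Fr k u := by
  let R := MvPolynomial (Fin m) k
  let F := FractionRing R
  let u : Fin m → F := fun i => algebraMap R F (MvPolynomial.X i)
  have h : (MvPolynomial.aeval u : R →ₐ[k] F) = IsScalarTower.toAlgHom k R F := by
    ext i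
    exact MvPolynomial.aeval_X _ _
  refine ⟨F, inferInstance, inferInstance, inferInstance, inferInstance, u, ?_, ?_⟩
  · rw [algebraicIndependent_iff_injective_aeval, h]
    exact IsFractionRing.injective R F
  · rw [eq_top_iff]
    intro t _
    obtain ⟨r, s, -, rfl⟩ := IsFractionRing.div_surjective (A := R) t
    have key : ∀ r : R, algebraMap R F r ∈ adjoin k (range u) := fun r =>
      IntermediateField.algebra_adjoin_le_adjoin k _ (by
        rw [Algebra.adjoin_range_eq_range_aeval, h]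
        exact ⟨r, rfl⟩)
    exact div_mem (key r) (key s)

section Sq

variable {K₀ K L₀ L : Type} [Field K₀] [Algebra ℂ K₀] [Algebra.EssFiniteType ℂ K₀] [Field K]
  [Algebra ℂ K] [Algebra.EssFiniteType ℂ K] [Field L₀] [Algebra ℂ L₀] [Algebra.EssFiniteType ℂ L₀]
  [Field L] [Algebra ℂ L] [Algebra.EssFiniteType ℂ L]

/-- degrees in a commutative square with finite vertical maps -/
theorem rn_sq {θ : K₀ →ₐ[ℂ] K} {θ' : L₀ →ₐ[ℂ] L} {β : K₀ →ₐ[ℂ] L₀} {α : K →ₐ[ℂ] L}
    (h : θ'.comp β = α.comp θ) (hθ : 0 < deg θ) (l : List (BD ℂ L₀))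
    (hl : l.length + dim ℂ K₀ = dim ℂ L₀) :
    deg θ' * rn β l = deg θ * rn α (l.map (pb θ')) := by
  obtain ⟨H, h1, -⟩ := Geo.exists_model (k := ℂ) (F := K₀) Free.zero ∅ (by simp) []
  have h2 : 0 < bnum (replicate (dim ℂ K₀) H) := bnum_pos (by simp) fun x hx =>
    List.eq_of_mem_replicate hx ▸ ⟨h1.free.nef, h1.big⟩
  generalize hlam : replicate (dim ℂ K₀) H = lam at h2
  have h3 : lam.length = dim ℂ K₀ := by simp [← hlam]
  have e1 := Div.bnum_rn α (l.map (pb θ')) (lam := lam.map (pb θ))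
    (by rw [List.length_map, h3, (deg_pos_iff θ).1 hθ])
  have e2 := Div.bnum_rn θ [] h3
  have e3 := Div.bnum_rn θ' [] (lam := l ++ lam.map (pb β)) (by simp [h3, hl])
  have e4 := Div.bnum_rn β l h3
  rw [List.nil_append, Div.rn_nil] at e2 e3
  have e5 : (lam.map (pb β)).map (pb θ') = (lam.map (pb θ)).map (pb α) := by
    rw [List.map_map, List.map_map]
    exact List.map_congr_left fun a _ => by simp only [Function.comp_apply, pb_pb, h]
  rw [List.map_append, e5, e1, e2, e4] at e3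
  refine mul_left_cancel₀ h2.ne' ?_
  linear_combination -e3

end Sq

section Cf

variable {ι : Type} [Fintype ι] [DecidableEq ι] {n m : ℕ} (e : Fin (m + 1) ≃ ι × Fin (n + 1))
  {R S : Type} [CommRing R] [CommRing S]

/-- the coefficients -/
def cf (u : Fin m → R) : ι × Fin (n + 1) → R := fun p => (Fin.cons 1 u : Fin (m + 1) → R) (e.symm p)

/-- the forms -/
def fm (u : Fin m → R) (i : ι) : R[X] := ∑ l : Fin (n + 1), monomial l (cf e u (i, l))

theorem cf_zero (u : Fin m → R) : cf e u (e 0) = 1 := by simp [cf]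

theorem cf_succ (u : Fin m → R) (i : Fin m) : cf e u (e i.succ) = u i := by simp [cf]

theorem map_cf (φ : R →+* S) (u : Fin m → R) (p : ι × Fin (n + 1)) :
    φ (cf e u p) = cf e (fun i => φ (u i)) p := by
  obtain ⟨j, rfl⟩ := e.surjective p
  refine Fin.cases ?_ (fun j => ?_) j
  · rw [cf_zero, cf_zero, map_one]
  · rw [cf_succ, cf_succ]

theorem coeff_fm (u : Fin m → R) (i : ι) (l : Fin (n + 1)) :
    (fm e u i).coeff l = cf e u (i, l) := by
  simp [fm, coeff_monomial, Fin.val_inj]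

theorem natDegree_fm (u : Fin m → R) (i : ι) : (fm e u i).natDegree ≤ n :=
  natDegree_sum_le_of_forall_le _ _ fun l _ =>
    (natDegree_monomial_le _).trans (Nat.lt_succ_iff.mp l.2)

theorem map_fm (φ : R →+* S) (u : Fin m → R) (i : ι) :
    (fm e u i).map φ = fm e (fun i => φ (u i)) i := by
  simp only [fm, Polynomial.map_sum, map_monomial, map_cf]

theorem lead_fm {i₀ : ι} (he : e 0 = (i₀, Fin.last n)) (u : Fin m → R) :
    (fm e u i₀).coeff n = 1 :=
  (coeff_fm e u i₀ (Fin.last n)).trans (he ▸ cf_zero e u)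

variable {k F : Type} [Field k] [Field F] [Algebra k F] {u : Fin m → F}

theorem span_fm [Nontrivial ι] {i₀ : ι} (he : e 0 = (i₀, Fin.last n))
    (h : AlgebraicIndependent k u) : Ideal.span (range (fm e u)) = ⊤ := by
  by_cases hn : n = 0
  · refine Ideal.eq_top_of_isUnit_mem _ (Ideal.subset_span ⟨i₀, rfl⟩) ?_
    have h1 := natDegree_fm e u i₀
    have h2 := lead_fm e he u
    subst hn
    rw [eq_C_of_natDegree_le_zero h1, h2]
    simp
  obtain ⟨i₁, hi⟩ := exists_ne i₀
  obtain ⟨p, q, -, -, h1⟩ := exists_mul_add_mul_eq_C_resultant _ _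
    (natDegree_fm e u i₀) (natDegree_fm e u i₁) (Or.inl hn)
  refine Ideal.eq_top_of_isUnit_mem _ (h1 ▸ Ideal.add_mem _
    (Ideal.mul_mem_right _ _ (Ideal.subset_span (Set.mem_range_self i₀)))
    (Ideal.mul_mem_right _ _ (Ideal.subset_span (Set.mem_range_self i₁))))
    (isUnit_C.mpr (Ne.isUnit ?_))
  have h2 : ∀ i, fm e u i = (fm e (MvPolynomial.X : Fin m → MvPolynomial (Fin m) k) i).map
      (MvPolynomial.aeval u : MvPolynomial (Fin m) k →ₐ[k] F).toRingHom := fun i => by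
    rw [map_fm]
    simp
  rw [h2, h2, resultant_map_map]
  refine (map_ne_zero_iff _ h).2 fun h0 => ?_
  let v : Fin m → k := fun j => if e j.succ = (i₁, 0) then 1 else 0
  have h3 := congrArg (MvPolynomial.eval v) h0
  rw [← resultant_map_map, map_fm, map_fm, map_zero] at h3
  have h4 : ∀ l, cf e (fun j => MvPolynomial.eval v (MvPolynomial.X j)) (i₁, l) =
      if l = 0 then 1 else 0 := fun l => by
    obtain ⟨j, hj⟩ := e.surjective (i₁, l)
    revert hj
    refine Fin.cases (fun hj => (hi (congrArg Prod.fst (hj.symm.trans he))).elim) (fun j hj => ?_) j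
    rw [← hj, cf_succ, MvPolynomial.eval_X]
    simp only [v, hj, Prod.mk.injEq, true_and]
  have h5 : fm e (fun j => MvPolynomial.eval v (MvPolynomial.X j)) i₁ = 1 := by
    simp only [fm, h4, apply_ite, map_zero, Finset.sum_ite_eq', Finset.mem_univ, if_true]
    simp
  rw [h5, resultant_one_right, lead_fm e he] at h3
  simp at h3

theorem mxf_cf {k' : Type} [Field k'] [Algebra k' F] (u : Fin m → F) :
    mxf k' (cf e u) = mxf k' (Fin.cons 1 u : Fin (m + 1) → F) :=
  eq_mxf (fun j => by simpa [cf] using mem_Sec_mxf (k := k') (cf e u) (e j)) fun V =>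
    (exists_val_mxf (k := k') ⟨e 0, (cf_zero e u).trans_ne one_ne_zero⟩ V).elim fun p hp => ⟨e.symm p, hp⟩

theorem ind_cf [Infinite k] (h : AlgebraicIndependent k u) (a : ι × Fin (n + 1) → k)
    (ha : ∑ x, algebraMap k F (a x) * cf e u x = 0) : a = 0 := by
  have h1 : Tr89.PInd k (cf e u) := (Tr89.pind_of_algInd (x := (Fin.cons 1 u : Fin (m + 1) → F))
    (by simp) (by simpa using h)).comp e.symm.injective
  have h2 := h1 1 (∑ x, a x • MvPolynomial.X x) (MvPolynomial.IsHomogeneous.sum _ _ _ fun x _ => by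
    rw [MvPolynomial.smul_eq_C_mul]
    exact (MvPolynomial.isHomogeneous_X k x).C_mul _) (by
      simpa [Algebra.smul_def] using ha)
  exact funext (Fintype.linearIndependent_iff.1 (MvPolynomial.linearIndependent_X _ k) a h2)

end Cf

section Ext

variable {J : Type} [Fintype J] [DecidableEq J] {io : Option J → Type} [∀ j, Fintype (io j)]
  [∀ j, DecidableEq (io j)] {d : J → ℕ} {n m : ℕ} [Nontrivial (io none)]
  {e : Fin (m + 1) ≃ io none × Fin (n + 1)} {i₀ : io none} (he : e 0 = (i₀, Fin.last n))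
  {I k F : Type} [Field k] [Algebra ℂ k] [Field F] [Algebra ℂ F] [Algebra k F]
  [IsScalarTower ℂ k F] {u : Fin m → F}

/-- the datum extended by generic forms -/
def ext (h : AlgebraicIndependent k u) (ξ : Dat (bs io) d I k) : Dat io (exd d n) I F where
  f j := match j with
    | none => fm e u
    | some j => (ξ.map (IsScalarTower.toAlgHom ℂ k F)).f j
  x := (ξ.map (IsScalarTower.toAlgHom ℂ k F)).x
  cp := ⟨fun j => match j with
    | none => natDegree_fm e u
    | some j => (ξ.map _).cp.1 j, fun j => match j with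
    | none => ⟨i₀, (lead_fm e he u).trans_ne one_ne_zero⟩
    | some j => (ξ.map _).cp.2.1 j, fun j => match j with
    | none => span_fm e he h
    | some j => (ξ.map _).cp.2.2 j⟩


variable [Algebra.EssFiniteType ℂ k] [Algebra.EssFiniteType ℂ F]

theorem Fr.dim (h : Fr k u) : dim ℂ F = dim ℂ k + m := by
  haveI : CharZero k := charZero_of_injective_algebraMap (algebraMap ℂ k).injective
  haveI := Lin62.eft_of_top h.gen
  rw [Loc.dim_tower ℂ k F, Tr89.dim_eq_card h.gen h.ind, Fintype.card_fin]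

theorem Fr.rn_one (h : Fr k u) :
    rn (IsScalarTower.toAlgHom ℂ k F) (replicate m (mxf ℂ (cf e u))) = 1 := by
  haveI : CharZero k := charZero_of_injective_algebraMap (algebraMap ℂ k).injective
  haveI := Lin62.eft_of_top h.gen
  rw [Div.rn_tower, List.map_replicate, up_mxf, mxf_cf]
  exact Tr89.bnum_proj (by simp) (by simpa using h.gen)
    (by rw [Tr89.dim_eq_card h.gen h.ind, Fintype.card_fin])

theorem univ_ext [Fintype I] (hm : m = Emb.mp io n) (h : Fr k u) {ξ : Dat (bs io) d I k}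
    (hu : ξ.Univ) : (ext he h.ind ξ).Univ := by
  have h3 := Vb37.univ_card hu
  obtain ⟨⟨a, b, c, h1, h2, h4⟩, h5, h6⟩ := hu
  refine ⟨⟨a, b, c, by simp [ext, Dat.map, h1], by simp [ext, Dat.map, h2],
    by simp [ext, Dat.map, h4]⟩, ?_, ?_⟩
  · have h7 : ∀ x, algebraMap k F x ∈ adjoin ℂ (ext he h.ind ξ).crd := fun x => by
      have h8 : adjoin ℂ ξ.crd ≤
          (adjoin ℂ (ext he h.ind ξ).crd).comap (IsScalarTower.toAlgHom ℂ k F) := by
        refine IntermediateField.adjoin_le_iff.2 fun t ht => IntermediateField.subset_adjoin _ _ ?_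
        have h9 : IsScalarTower.toAlgHom ℂ k F t ∈ (ξ.map (IsScalarTower.toAlgHom ℂ k F)).crd := by
          rw [Vb37.crd_map]
          exact ⟨t, ht, rfl⟩
        rcases h9 with ⟨j, h9⟩ | h9
        · exact .inl ⟨some j, h9⟩
        · exact .inr h9
      exact h8 (h5 ▸ IntermediateField.mem_top)
    rw [eq_top_iff]
    intro t _
    have ht : t ∈ adjoin k (range u) := h.gen ▸ IntermediateField.mem_top
    induction ht using IntermediateField.adjoin_induction with
    | mem x hx =>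
      obtain ⟨i, rfl⟩ := hx
      refine IntermediateField.subset_adjoin _ _
        (.inl ⟨none, (e i.succ).1, i₀, (e i.succ).2, n, ?_⟩)
      change u i = (fm e u _).coeff _ / (fm e u i₀).coeff n
      rw [lead_fm e he, div_one, coeff_fm, cf_succ]
    | algebraMap x => exact h7 x
    | add x y _ _ hx hy => exact add_mem (hx trivial) (hy trivial)
    | inv x _ hx => exact inv_mem (hx trivial)
    | mul x y _ _ hx hy => exact mul_mem (hx trivial) (hy trivial)
  · rw [trdeg_eq_dim] at h6 ⊢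
    rw [h.dim, Nat.cast_inj.1 h6, mdim, mdim, Fintype.sum_option, hm, Emb.mp]
    congr 1
    change _ = Fintype.card (io none) * (n + 1) - 1 +
      ∑ j, (Fintype.card (bs io j) * (d j + 1) - 1) + Fintype.card I - 3
    omega

end Ext

/-- **the universal datum with one more factor** -/
theorem univStmt : UnivStmt := by
  intro J _ _ io _ _ d n N hio M I K₀ K _ _ _ _ _ _ _ _ ξ₀ θ ξ m hu hθ hm
  obtain ⟨i₀⟩ : Nonempty (io none) := inferInstance
  have hc : Fintype.card (Fin (Emb.mp io n + 1)) = Fintype.card (io none × Fin (n + 1)) := by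
    have : 0 < Fintype.card (io none) * (n + 1) := Nat.mul_pos Fintype.card_pos n.succ_pos
    rw [Fintype.card_fin, Fintype.card_prod, Fintype.card_fin, Emb.mp]
    omega
  obtain ⟨e, he⟩ : ∃ e : Fin (Emb.mp io n + 1) ≃ io none × Fin (n + 1), e 0 = (i₀, Fin.last n) :=
    ⟨(Equiv.swap 0 ((Fintype.equivOfCardEq hc).symm (i₀, Fin.last n))).trans
      (Fintype.equivOfCardEq hc), by simp⟩
  obtain ⟨F, _, _, _, _, u, h⟩ := exists_fr K (Emb.mp io n)
  haveI := Lin62.eft_of_top h.gen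
  haveI : Algebra.EssFiniteType ℂ F := .comp ℂ K F
  letI : Algebra K₀ K := θ.toRingHom.toAlgebra
  haveI : IsScalarTower ℂ K₀ K := .of_algebraMap_eq fun c => (θ.commutes c).symm
  letI : Algebra K₀ F := ((algebraMap K F).comp (algebraMap K₀ K)).toAlgebra
  haveI : IsScalarTower K₀ K F := .of_algebraMap_eq fun _ => rfl
  haveI : IsScalarTower ℂ K₀ F := .of_algebraMap_eq fun c => by
    rw [IsScalarTower.algebraMap_apply K₀ K F, ← IsScalarTower.algebraMap_apply ℂ K₀ K,
      ← IsScalarTower.algebraMap_apply]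
  let L₀ := adjoin K₀ (range u)
  let u₀ : Fin (Emb.mp io n) → L₀ := fun i => ⟨u i, IntermediateField.subset_adjoin _ _ ⟨i, rfl⟩⟩
  have h₀ : Fr K₀ u₀ := ⟨AlgebraicIndependent.of_comp L₀.val
    (h.ind.restrictScalars (algebraMap K₀ K).injective), Lin62.adjoin_sub u⟩
  haveI := Lin62.eft_of_top h₀.gen
  haveI : Algebra.EssFiniteType ℂ L₀ := .comp ℂ K₀ L₀
  obtain ⟨L, _, _, _, _, _, r, η, h1, h2⟩ := Bub96.exists_nrm (ext he h.ind ξ) N
  haveI : Algebra.EssFiniteType ℂ L := .comp ℂ F L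
  let τ := IsScalarTower.toAlgHom ℂ F L
  let ι : L₀ →ₐ[ℂ] F := L₀.val.restrictScalars ℂ
  have hτ : dim ℂ L = dim ℂ F := (deg_pos_iff τ).1 (by rw [deg_tower]; exact Module.finrank_pos)
  have h3 : (ext he h₀.ind ξ₀).map ι = (ext he h.ind ξ).res m := by
    have h4 : (ξ₀.map (IsScalarTower.toAlgHom ℂ K₀ L₀)).map ι =
        (ξ.res m).map (IsScalarTower.toAlgHom ℂ K F) := by
      rw [hm, Vb37.dmap_map, Vb37.dmap_map]
      rfl
    refine Vb37.dat_ext (funext fun j => ?_) (congrArg Dat.x h4 :)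
    cases j with
    | none => exact funext fun i => map_fm e _ u₀ i
    | some j => exact congrFun (congrArg Dat.f h4) j
  have h4 : coef η = fun x => τ (cf e u x) := funext fun x => by
    have h5 := congrArg (fun ζ => coef ζ x) h1
    exact h5.trans ((coeff_map _ _).trans (congrArg τ (coeff_fm e u x.1 x.2)))
  refine ⟨L₀, inferInstance, inferInstance, ‹_›, L, inferInstance, inferInstance, ‹_›, τ.comp ι,
    τ.comp (IsScalarTower.toAlgHom ℂ K F), _, inferInstance,
    Sum.inl, η, ?_, h2, ⟨_, univ_ext he rfl h₀ hu, ?_⟩, ?_, by rw [hτ, h.dim], fun a ha => ?_, ?_⟩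
  · rw [h1, ← Vb37.dmap_map]
    rfl
  · rw [← Vb37.dmap_map, h3]
    change Dat.Eqv _ ((η.res Sum.inl).res m)
    rw [h1]
    exact Vb37.eqv_refl _
  · rw [deg_pos_iff, hτ, h.dim, h₀.dim, (deg_pos_iff θ).1 hθ]
  · haveI : Infinite K := .of_injective _ (algebraMap ℂ K).injective
    refine ind_cf e h.ind a (τ.injective ?_)
    simpa [h4] using ha
  · have h5 := rn_sq (θ := θ) (θ' := τ.comp ι) (β := IsScalarTower.toAlgHom ℂ K₀ L₀)
      (α := τ.comp (IsScalarTower.toAlgHom ℂ K F)) rfl hθ (replicate (Emb.mp io n) (mxf ℂ (cf e u₀)))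
      (by rw [List.length_replicate, h₀.dim, add_comm])
    rw [h₀.rn_one, mul_one, List.map_replicate, pb_mxf] at h5
    rw [h5, h4]
    congr 4
    exact funext fun x => congrArg τ (map_cf e (ι : L₀ →+* F) u₀ x)

end Crest.Agent.X262.Emb43
end
private theorem rz_5d488a7316 : type_of% @_root_.Crest.Agent.X262.Emb43.ext.eq_1 := @_root_.Crest.Agent.X262.Emb43.ext.eq_1 -- L191
end

-- ▼ part X262/Emb71/Desc
section

/-!
# Row 262, road B, EMB (helper71), part 2: a configuration on the graph and its old part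

* `fn_up`, `fn_down` : sections on the graph and sections pulled back from the old factors;
* `mem_res`, `injOn_iff` : configurations and trees;
* `lift`, `descStmt`.
-/

set_option autoImplicit false
set_option linter.unusedSectionVars false

noncomputable section

namespace Crest.Agent.X262.Emb71

open Polynomial Crest.Agent.X262.Vb Crest.Agent.X262.Emb Crest.Agent.X262.Tree87
open Crest.Agent.X262.Bub96 (Tr)
open Crest.Agent.X262.Bub96.Tr

section Cfg

variable {J : Type} [Fintype J] [DecidableEq J] {io : J → Type} [∀ j, Fintype (io j)]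
  [∀ j, DecidableEq (io j)] {I I₀ E k : Type} [Fintype I] [Fintype I₀] [Field E] [Algebra ℂ E]
  [Field k] [Algebra ℂ k] {d κ : J → ℕ} {N : ℕ} {z : Cfg io I E} (D : TD d N z k)

theorem mem_V (hκ : ∀ j, κ j ≤ N) {u : I → k} : u ∈ mapS D.α (z.V κ) ↔
    ∃ φ, Fn κ D.t φ ∧ ∀ q, φ (D.sp q) = (∏ j, D.c q j ^ κ j) * u q := by
  rw [← mul_mem_sclS_iff fun q => chr_ne' (D.c_ne q) κ]
  refine (D.mem_V hκ).trans ⟨fun ⟨s, h1, h2⟩ => ⟨_, ⟨s, h1, fun _ => rfl⟩, h2⟩, ?_⟩
  rintro ⟨φ, ⟨s, h1, h2⟩, h3⟩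
  exact ⟨s, h1, fun q => (h2 _).trans (h3 q)⟩

theorem mem_res (hκ : ∀ j, κ j ≤ N) (g : I₀ → I) {w : I₀ → E} : w ∈ (z.res g).V κ ↔
    ∃ φ, Fn κ D.t φ ∧ ∀ q, φ (D.sp (g q)) = (∏ j, D.c (g q) j ^ κ j) * D.α (w q) := by
  rw [← map_mem_mapS_iff D.α]
  change _ ∈ mapS D.α ((z.V κ).map _) ↔ _
  rw [mapS_map]
  constructor
  · rintro ⟨u, h1, h2⟩
    obtain ⟨φ, h3, h4⟩ := (mem_V D hκ).1 h1
    exact ⟨φ, h3, fun q => (h4 _).trans (congrArg (_ * ·) (congrFun h2 q))⟩
  · rintro ⟨φ, h1, h2⟩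
    refine ⟨fun q => (∏ j, D.c q j ^ κ j)⁻¹ * φ (D.sp q), (mem_V D hκ).2 ⟨φ, h1, fun q => ?_⟩,
      funext fun q => ?_⟩
    · rw [mul_inv_cancel_left₀ (chr_ne' (D.c_ne q) κ)]
    · change _ * φ (D.sp (g q)) = _
      rw [h2, inv_mul_cancel_left₀ (chr_ne' (D.c_ne _) κ)]

theorem injOn_iff (hκ : ∀ j, κ j ≤ N) (g : I₀ → I) : InjOn g (z.V κ) ↔
    ∀ φ, Fn κ D.t φ → (∀ q, φ (D.sp (g q)) = 0) → ∀ x, φ x = 0 := by
  constructor
  · intro h φ h1 h2
    have h3 : (fun q => (∏ j, D.c q j ^ κ j)⁻¹ * φ (D.sp q)) ∈ mapS D.α (z.V κ) :=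
      (mem_V D hκ).2 ⟨φ, h1, fun q => by rw [mul_inv_cancel_left₀ (chr_ne' (D.c_ne q) κ)]⟩
    have h4 : (fun q => (∏ j, D.c q j ^ κ j)⁻¹ * φ (D.sp q)) ∈ mapS D.α ⊥ :=
      (mem_mapS_iff D.α).2 fun l hl => h _ ((mem_mapS_iff D.α).1 h3 l hl) fun q => by
        simp only [h2, mul_zero, map_zero]
    have h5 : mapS D.α (⊥ : Submodule E (I → E)) ≤ ⊥ := Submodule.span_le.2 (by
      rintro _ ⟨u, hu, rfl⟩
      obtain rfl : u = 0 := hu
      exact funext fun _ => map_zero _)
    obtain ⟨s, h6, h7⟩ := h1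
    intro x
    rw [← h7, D.eq_zero hκ h6 fun q => ?_, val_zero]
    exact (h7 _).trans ((mul_eq_zero.1 (congrFun (h5 h4) q)).resolve_left
      (inv_ne_zero (chr_ne' (D.c_ne q) κ)))
  · intro h w h1 h2
    obtain ⟨φ, h3, h4⟩ := (mem_V D hκ).1 (map_mem_mapS D.α h1)
    have h5 := h φ h3 fun q => by rw [h4, h2, map_zero, mul_zero]
    funext q
    have h6 := h4 q
    rw [h5, eq_comm, mul_eq_zero, map_eq_zero] at h6
    exact h6.resolve_left (chr_ne' (D.c_ne q) κ)

/-- the diagonal map -/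
def dg (c : I₀ → E) : (I₀ → E) →ₗ[E] (I₀ → E) := LinearMap.pi fun x => c x • LinearMap.proj x

theorem mem_mapS_dg (β : E →ₐ[ℂ] k) (c : I₀ → E) (U : Submodule E (I₀ → E)) {w : I₀ → k} :
    w ∈ mapS β (U.comap (dg c)) ↔ (fun q => β (c q) * w q) ∈ mapS β U := by
  rw [mem_mapS_iff, mem_mapS_iff]
  refine forall₂_congr fun l hl => ?_
  simp only [hl _ _]
  rfl

end Cfg

variable {J : Type} [Fintype J] [DecidableEq J] {io : Option J → Type} [∀ j, Fintype (io j)]
  [∀ j, DecidableEq (io j)] {A A' : Type} [Fintype A] [Fintype A']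
  {T : Tgt (bs io) A} {T' : Tgt io A'} {d : J → ℕ} (G : Gr T T' d)

/-- the old degree which corresponds to `κ` in the chart `l` -/
def od (κ : Option J → ℕ) (l : G.L) : J → ℕ := fun j => κ (some j) + κ none * G.m l j

theorem od_eq (κ : Option J → ℕ) (l : G.L) :
    exd (od G κ l) 0 + κ none • Pi.single none 1 = κ + κ none • exd (G.m l) 0 :=
  funext fun j => by cases j <;> simp [exd, od]

section Tree

variable {G} {k : Type} [Field k] [Algebra ℂ k] [IsAlgClosed k] {t : Tr k (Option J) io}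
  (ht : t.OK) {lam : t.Pt → G.L → k}
  (hl : ∀ x l a, pv (prP (t.ev x)) (G.q l a) = lam x l * t.ev x none a) {κ : Option J → ℕ}

include ht hl

theorem fn_q (l : G.L) (a : io none) (n : ℕ) :
    Fn (n • exd (G.m l) 0) t fun x => (lam x l * t.ev x none a) ^ n :=
  ((fn_pv ht (mh_upq (G.hom l a))).congr rfl fun x => by rw [pv_upq, hl]).pow ht n

theorem fn_up {φ : t.Pt → k} (h : Fn κ t φ) (l : G.L) :
    Fn (exd (od G κ l) 0) t fun x => lam x l ^ κ none * φ x :=
  Fn.div ht (fun a => (fn_ev ht none a).pow ht (κ none))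
    (fun x => (ht.ev_ne x none).imp fun _ h => pow_ne_zero _ h) fun a =>
      (h.mul ht (fn_q ht hl l a _)).congr (od_eq G κ l).symm fun x => by ring

theorem fn_down (hc : ∀ x, ∃ l, lam x l ≠ 0) {I₀ : Type} {Y : I₀ → t.Pt} {w : I₀ → k}
    (hY : ∀ l l' φ, Fn (exd (od G κ l + κ none • G.m l') 0) t φ → (∀ q, φ (Y q) = 0) →
      ∀ x, φ x = 0)
    (h : ∀ l, ∃ φ, Fn (exd (od G κ l) 0) t φ ∧ ∀ q, φ (Y q) = lam (Y q) l ^ κ none * w q) :
    ∃ φ, Fn κ t φ ∧ ∀ q, φ (Y q) = w q := by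
  choose s h1 h2 using h
  choose c hc using hc
  have h3 : ∀ l l' x, s l x * lam x l' ^ κ none = s l' x * lam x l ^ κ none := by
    intro l l' x
    obtain ⟨a, ha⟩ := ht.ev_ne x none
    have h4 := hY l l' _ ((((h1 l).mul ht (fn_q ht hl l' a (κ none))).congr
      (funext fun j => by cases j <;> simp [exd, od]) fun _ => rfl).sub
      (((h1 l').mul ht (fn_q ht hl l a (κ none))).congr
        (funext fun j => by cases j <;> simp [exd, od, add_right_comm]) fun _ => rfl))
      (fun q => by rw [h2, h2]; ring) x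
    refine mul_right_cancel₀ (pow_ne_zero (κ none) ha) ?_
    linear_combination h4
  have h4 : ∀ l x, s (c x) x / lam x (c x) ^ κ none * lam x l ^ κ none = s l x := fun l x => by
    rw [div_mul_eq_mul_div, h3, mul_div_cancel_right₀ _ (pow_ne_zero _ (hc x))]
  refine ⟨fun x => s (c x) x / lam x (c x) ^ κ none,
    Fn.div ht (fun p : G.L × io none => fn_q ht hl p.1 p.2 (κ none)) (fun x => ?_) fun p =>
      ((h1 p.1).mul ht ((fn_ev ht none p.2).pow ht (κ none))).congr (od_eq G κ p.1) fun x => ?_,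
    fun q => ?_⟩
  · obtain ⟨a, ha⟩ := ht.ev_ne x none
    exact ⟨(c x, a), pow_ne_zero _ (mul_ne_zero (hc x) ha)⟩
  · rw [mul_pow, ← mul_assoc, h4]
  · change s _ _ / _ = _
    rw [h2, mul_div_cancel_left₀ _ (pow_ne_zero _ (hc _))]

end Tree

section Lift

variable {I I₀ E E₀ : Type} [Field E] [Algebra ℂ E] [Field E₀] [Algebra ℂ E₀]

open Classical in
/-- the new coordinates -/
def uu (y : Pnt (bs io) E) : io none → E := fun a =>
  if h : ∃ p : G.L × io none, pv y (G.q p.1 p.2) ≠ 0 then pv y (G.q h.choose.1 a) else 0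

open Classical in
/-- the multipliers -/
def lm (y : Pnt (bs io) E) (l : G.L) : E :=
  if h : ∃ p : G.L × io none, pv y (G.q p.1 p.2) ≠ 0 then
    pv y (G.q l h.choose.2) / pv y (G.q h.choose.1 h.choose.2) else 0

/-- the lift of a configuration to the graph -/
def lift (I E : Type) [Field E] [Algebra ℂ E] (z : Cfg (bs io) I E) : Cfg io I E where
  y q := exP (z.y q) (uu G (z.y q))
  V κ := ⨅ l, (z.V (od G κ l)).comap (dg fun q => lm G (z.y q) l ^ κ none)

variable {G}

theorem pv_gau (β : E₀ →ₐ[ℂ] E) {c : J → E} (hc : ∀ j, c j ≠ 0) (y : Pnt (bs io) E₀) (l : G.L)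
    (a : io none) : pv (fun j i => c j * β (y j i)) (G.q l a) =
      (∏ j, c j ^ G.m l j) * β (pv y (G.q l a)) := by
  rw [(MZ.of_MH (G.hom l a)).pv_scl hc, pv_map]
  simp only [zpow_natCast]

/-- the lift at one point -/
theorem exists_mu (β : E₀ →ₐ[ℂ] E) {c : J → E} (hc : ∀ j, c j ≠ 0) {y₀ : Pnt (bs io) E₀}
    {y : Pnt io E} (hy : prP y = fun j i => c j * β (y₀ j i)) {lam : G.L → E}
    (hl : ∀ l a, pv (prP y) (G.q l a) = lam l * y none a) (h0 : ∃ l a, pv (prP y) (G.q l a) ≠ 0) :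
    ∃ μ : E, μ ≠ 0 ∧ (∀ a, y none a = μ * β (uu G y₀ a)) ∧
      ∀ l, (∏ j, c j ^ G.m l j) * β (lm G y₀ l) = lam l * μ := by
  simp only [hy, pv_gau β hc] at hl h0
  have h : ∃ p : G.L × io none, pv y₀ (G.q p.1 p.2) ≠ 0 := by
    obtain ⟨l, a, h1⟩ := h0
    exact ⟨(l, a), fun h2 => h1 (by rw [h2, map_zero, mul_zero])⟩
  have h1 : β (pv y₀ (G.q h.choose.1 h.choose.2)) ≠ 0 := (map_ne_zero β).2 h.choose_spec
  have h2 := hl h.choose.1 h.choose.2
  have h3 := chr_ne' hc (G.m h.choose.1)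
  have h4 : lam h.choose.1 ≠ 0 := left_ne_zero_of_mul (h2 ▸ mul_ne_zero h3 h1)
  refine ⟨(∏ j, c j ^ G.m h.choose.1 j) / lam h.choose.1, div_ne_zero h3 h4, fun a => ?_,
    fun l => ?_⟩
  · rw [uu, dif_pos h, div_mul_eq_mul_div, hl, mul_div_cancel_left₀ _ h4]
  · rw [lm, dif_pos h, map_div₀, ← mul_div_assoc, hl, ← mul_div_assoc, div_eq_div_iff h1 h4]
    linear_combination -lam l * h2

variable [Fintype I] [Fintype I₀] {n N N₁ : ℕ} {z : Cfg io I E} {g : I₀ → I}

/-- the configuration on the graph is determined by its part of new degree zero -/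
theorem det (hz : TL (exd d n) N z) (hO : z.On T') (hk : ∀ a j, T'.k a j ≤ N)
    (hN : ∀ l l' j, N₁ + N₁ * G.m l j + N₁ * G.m l' j ≤ N) (hN₁ : N₁ ≤ N)
    (hg : ∀ κ : J → ℕ, (∀ j, κ j ≤ N) → InjOn g (z.V (exd κ 0))) {lam : I → G.L → E}
    (hl : ∀ q l a, pv (prP (z.y q)) (G.q l a) = lam q l * z.y q none a) :
    (∀ q, ∃ l a, pv (prP (z.y q)) (G.q l a) ≠ 0) ∧ ∀ κ : Option J → ℕ, (∀ j, κ j ≤ N₁) →
      InjOn g (z.V κ) ∧ ∀ w, w ∈ (z.res g).V κ ↔
        ∀ l, (fun q => lam (g q) l ^ κ none * w q) ∈ (z.res g).V (exd (od G κ l) 0) := by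
  obtain ⟨k, _, _, _, ⟨D⟩⟩ := hz
  have h1 := D.on hk hO
  choose lt hlt using fun x => exists_lam G (h1 x) (nz_ev D.t D.ok x)
  have h2 := cov_tree G D.ok D.deg h1
  have h3 : ∀ x, ∃ l, lt x l ≠ 0 := fun x => by
    obtain ⟨l, a, h⟩ := h2 x
    exact ⟨l, left_ne_zero_of_mul (hlt x l a ▸ h)⟩
  have h4 : ∀ q l a, pv (prP (D.t.ev (D.sp q))) (G.q l a) =
      (∏ j, D.c q (some j) ^ G.m l j) * D.α (pv (prP (z.y q)) (G.q l a)) := fun q l a => by
    rw [D.ev_sp]
    exact pv_gau D.α (fun j => D.c_ne q (some j)) (prP (z.y q)) l a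
  have h5 : ∀ q l, lt (D.sp q) l * D.c q none =
      (∏ j, D.c q (some j) ^ G.m l j) * D.α (lam q l) := fun q l => by
    obtain ⟨a, ha⟩ := D.nz q none
    have h := h4 q l a
    rw [hlt, hl, D.ev_sp, map_mul] at h
    refine mul_right_cancel₀ ((map_ne_zero D.α).2 ha) ?_
    linear_combination h
  have h6 : ∀ {κ : J → ℕ}, (∀ j, κ j ≤ N) → ∀ j, exd κ 0 j ≤ N := fun h j => by
    cases j
    · exact Nat.zero_le _
    · exact h _
  refine ⟨fun q => ?_, fun κ hκ => ?_⟩
  · obtain ⟨l, a, h⟩ := h2 (D.sp q)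
    exact ⟨l, a, fun h' => h (by rw [h4, h', map_zero, mul_zero])⟩
  have h7 : ∀ l l' j, (od G κ l + κ none • G.m l') j ≤ N := fun l l' j =>
    le_trans (add_le_add (add_le_add (hκ _) (Nat.mul_le_mul_right _ (hκ _)))
      (Nat.mul_le_mul_right _ (hκ _))) (hN l l' j)
  have h8 : ∀ l j, od G κ l j ≤ N := fun l j => le_trans (Nat.le_add_right _ _) (h7 l l j)
  have h9 : ∀ j, κ j ≤ N := fun j => (hκ j).trans hN₁
  have h10 : ∀ q l, (∏ j, D.c q j ^ exd (od G κ l) 0 j) * D.α (lam q l) ^ κ none =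
      lt (D.sp q) l ^ κ none * ∏ j, D.c q j ^ κ j := fun q l => by
    simp only [Fintype.prod_option, exd, od, pow_zero, one_mul, pow_add, pow_mul',
      Finset.prod_mul_distrib, Finset.prod_pow]
    rw [mul_assoc, ← mul_pow, ← h5, ← mul_assoc, ← mul_pow, mul_comm]
  refine ⟨(injOn_iff D h9 g).2 fun φ e1 e2 x => ?_, fun w => ⟨fun h l => ?_, fun h => ?_⟩⟩
  · obtain ⟨l, e3⟩ := h3 x
    have e4 := (injOn_iff D (h6 (h8 l)) g).1 (hg _ (h8 l)) _ (fn_up D.ok hlt e1 l)
      (fun q => by rw [e2, mul_zero]) x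
    exact (mul_eq_zero.1 e4).resolve_left (pow_ne_zero _ e3)
  · obtain ⟨φ, e1, e2⟩ := (mem_res D h9 g).1 h
    refine (mem_res D (h6 (h8 l)) g).2 ⟨_, fn_up D.ok hlt e1 l, fun q => ?_⟩
    rw [e2, map_mul, map_pow, ← mul_assoc, ← mul_assoc, h10]
  · refine (mem_res D h9 g).2 (fn_down D.ok hlt h3
      (fun l l' => (injOn_iff D (h6 (h7 l l')) g).1 (hg _ (h7 l l'))) fun l => ?_)
    obtain ⟨φ, e1, e2⟩ := (mem_res D (h6 (h8 l)) g).1 (h l)
    refine ⟨φ, e1, fun q => ?_⟩
    rw [e2, map_mul, map_pow, ← mul_assoc, ← mul_assoc, h10]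

end Lift

/-- **DESC** -/
theorem descStmt : DescStmt := by
  intro J _ _ io _ _ A A' _ _ T T' d G
  refine ⟨lift G, fun N₁ => ?_⟩
  obtain ⟨M, hM⟩ := Finite.exists_le fun p : G.L × J => G.m p.1 p.2
  obtain ⟨K, hK⟩ := Finite.exists_le fun p : A' × Option J => T'.k p.1 p.2
  refine ⟨N₁ + N₁ * M + N₁ * M + K, ?_⟩
  intro I I₀ E E₀ _ _ _ _ _ _ n N z g z₀ β hN hz hO hg ⟨c, hc, h1, h2⟩
  have h3 : ∀ l l' j, N₁ + N₁ * G.m l j + N₁ * G.m l' j ≤ N := fun l l' j =>
    le_trans (add_le_add (add_le_add le_rfl (Nat.mul_le_mul_left _ (hM (l, j))))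
      (Nat.mul_le_mul_left _ (hM (l', j)))) (by omega)
  choose lam hl using fun q => exists_lam G (hO q) (hz.nz q)
  obtain ⟨h4, h5⟩ := det hz hO (fun a j => (hK (a, j)).trans (by omega)) h3 (by omega) hg hl
  choose μ h6 h7 h8 using fun q => exists_mu β (hc q) (h1 q) (hl (g q)) (h4 (g q))
  refine ⟨fun κ hκ => (h5 κ hκ).1, fun q j => j.elim (μ q) (c q), fun q j => ?_, fun q => ?_,
    fun κ hκ => ?_⟩
  · cases j
    · exact h6 q
    · exact hc q _
  · funext j i
    cases j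
    · exact h7 q i
    · exact congrFun (congrFun (h1 q) _) i
  · ext w
    have h9 : ∀ q, ∏ j, Option.elim j (μ q) (c q) ^ κ j ≠ 0 := fun q => chr_ne' (fun j => by
      cases j
      · exact h6 q
      · exact hc q _) κ
    change _ ↔ w ∈ sclS _ (mapS β (⨅ l, _))
    rw [(h5 κ hκ).2, mem_sclS_iff h9, mapS_iInf, Submodule.mem_iInf]
    refine forall_congr' fun l => ?_
    have h10 : ∀ j, od G κ l j ≤ N := fun j =>
      le_trans (add_le_add (hκ _) (Nat.mul_le_mul_right _ (hκ _)))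
        ((Nat.le_add_right _ _).trans (h3 l l j))
    have h11 : (z.res g).V (exd (od G κ l) 0) =
        sclS (fun q => ∏ j, c q j ^ od G κ l j) (mapS β (z₀.V (od G κ l))) := h2 _ h10
    rw [mem_mapS_dg, h11]
    refine Iff.trans (Iff.of_eq ?_) (mul_mem_sclS_iff fun q => chr_ne' (hc q) (od G κ l))
    congr 1
    funext q
    have e1 := h9 q
    have e2 := congrArg (· ^ κ none) (h8 q l)
    simp only [Fintype.prod_option, Option.elim, od, pow_add, pow_mul', Finset.prod_mul_distrib,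
      Finset.prod_pow, map_pow, mul_pow] at e1 e2 ⊢
    have e3 := left_ne_zero_of_mul e1
    have e4 := right_ne_zero_of_mul e1
    field_simp
    linear_combination -w q * e2

end Crest.Agent.X262.Emb71
end
end

-- ▼ part X262/Emb96/Main

/-!
# Row 262, EMB, lifting (helper96), part 5: `Emb.LftStmt`
-/

set_option autoImplicit false
set_option linter.unusedSectionVars false

noncomputable section

namespace Crest.Agent.X262.Emb96

open Polynomial Crest.Agent.X277 Crest.Agent.X277.BD Crest.Agent.X277.BD.Cyc Crest.Agent.X262.Vb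
open Crest.Agent.X262.Bub96 Crest.Agent.X262.Bub96.Tr Crest.Agent.X262.Tree87 Crest.Agent.X262.Emb

variable {J : Type} [Fintype J] [DecidableEq J] {io : Option J → Type} [∀ j, Fintype (io j)]
  [∀ j, DecidableEq (io j)] {A A' : Type} [Fintype A] [Fintype A'] {T : Tgt (bs io) A}
  {T' : Tgt io A'} {d : J → ℕ} {E : Type} [Field E] [Algebra ℂ E]

theorem pv_upq (y : Pnt io E) (Q : MvPolynomial (Vr (bs io)) ℂ) :
    pv y (upq Q) = pv (prP y) Q := by
  rw [pv, upq, MvPolynomial.aeval_rename]; rfl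

theorem pv_span {y : Pnt io E} (h : T'.On y) {Q : MvPolynomial (Vr io) ℂ}
    (hQ : Q ∈ Ideal.span (Set.range T'.F)) : pv y Q = 0 := by
  obtain ⟨c, rfl⟩ := Ideal.mem_span_range_iff_exists_fun.1 hQ
  simp only [pv, map_sum, map_mul]
  exact Finset.sum_eq_zero fun a _ => mul_eq_zero_of_right _ (h a)

theorem wd_of_on (G : Gr T T' d) {y : Pnt io E} (h : T'.On y) (l : G.L) :
    Wd (y none) fun a => pv (prP y) (G.q l a) := fun a b => by
  have := pv_span h (G.idq l a b)
  simp only [← pv_upq]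
  simpa only [pv, map_sub, map_mul, MvPolynomial.aeval_X, sub_eq_zero] using this

/-- the charts of a graph -/
def cht (G : Gr T T' d) : Cht T d G.L (io none) where
  m := G.m
  q := G.q
  hom := G.hom
  cov := G.cov
  rk E _ _ y hy hT l l' := by
    by_cases h : ∃ a, pv y (G.q l a) ≠ 0
    · exact wd_of_on G (G.sec E y l hy hT h) l'
    · push Not at h
      intro a b
      simp only [h, zero_mul]

theorem on_of_wd (G : Gr T T' d) {y : Pnt io E} (hy : NZ y) (hT : T.On (prP y)) {l : G.L}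
    (hl : ∃ a, pv (prP y) (G.q l a) ≠ 0) (h : Wd (y none) fun a => pv (prP y) (G.q l a)) :
    T'.On y := fun b => by
  obtain ⟨μ, hμ⟩ := h.eq_smul hl
  have hμ0 : μ ≠ 0 := fun h0 => (hy none).elim fun a ha => ha (by rw [hμ, h0, zero_mul])
  have h1 : y = fun j i => (Option.elim j μ fun _ => 1) *
      exP (prP y) (fun a => pv (prP y) (G.q l a)) j i := by
    funext j i
    rcases j with _ | j
    · exact hμ i
    · exact (one_mul _).symm
  rw [h1, (MZ.of_MH (T'.hom b)).pv_scl (by rintro (_ | j); exacts [hμ0, one_ne_zero]),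
    G.sec E (prP y) l (fun j => hy (some j)) hT hl b, mul_zero]

variable {P I K : Type} [Fintype P] [DecidableEq P] [Fintype I] [Field K] [Algebra ℂ K]

/-- a datum with one more factor -/
def exD {n : ℕ} (ξ : Dat (bs io) d I K) (F : io none → K[X]) (h1 : ∀ i, (F i).natDegree ≤ n)
    (h2 : ∃ i, (F i).coeff n ≠ 0) (h3 : Ideal.span (Set.range F) = ⊤) : Dat io (exd d n) I K where
  f := fun
    | none => F
    | some j => ξ.f j
  x := ξ.x
  cp := by
    refine ⟨?_, ?_, ?_⟩ <;> rintro (_ | j)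
    exacts [h1, ξ.cp.1 j, h2, ξ.cp.2.1 j, h3, ξ.cp.2.2 j]

theorem liftAt (G : Gr T T' d) {N N' : ℕ} {ξ : Dat (ioP (bs io) P) (dP d P) I K}
    (h : ξ.NrmUp N') (hk : ∀ a j, T.k a j ≤ N') (hN : 2 ≤ N')
    (hN' : 2 * ∑ l, dot (G.m l) d ≤ N') (hN1 : N ≤ N') (hN2 : N * ∑ l, dot (G.m l) d ≤ N')
    {I₀ : Type} [Fintype I₀] (g : I₀ → I) (hg : (ξ.res g).Nrm (k2 J P)) (hA : Aux ξ g) :
    Lft T T' N (mnD ξ) := by
  intro V hT
  obtain ⟨κ, F, a1, a2, a3, a4⟩ := exists_lift (cht G) h (surj_plV V) hT hk hN hN' g hg hA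
  set n := dot (Sum.elim 0 κ) (dP d P) with hn
  have b1 : ∀ (L : Type) [Field L] [Algebra ℂ L] (α : K →ₐ[ℂ] L) (W : RZ ℂ L),
      cm (α : K →+* L) (alg_ov α) W = V → ∀ t, (∃ i, hv n ((F i).map (α : K →+* L)) t ≠ 0) ∧
      (mxf ℂ fun i => hv n ((F i).map (α : K →+* L)) t).val W =
        (lw (Sum.elim 0 κ) ((ξ.map α).pt t)).val W := fun L _ _ α W hW t => by
    obtain ⟨h1, i, h2⟩ := a3 L α W hW t
    have h3 := RZ.ne_zero_iff.1 ((val_pos _ _).trans_le h2).ne'
    exact ⟨⟨i, h3⟩, (val_mxf (s := fun i => hv n ((F i).map (α : K →+* L)) t) h3 fun j => (h1 j).trans h2).trans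
      (le_antisymm (h1 i) h2)⟩
  have b2 := b1 K (AlgHom.id ℂ K) V rfl
  simp only [dat_map_id, show ∀ i, (F i).map (AlgHom.id ℂ K : K →+* K) = F i from
    fun i => Polynomial.map_id] at b2
  have b3 : Ideal.span (Set.range F) = ⊤ := by
    let γ := IsScalarTower.toAlgHom ℂ K (AlgebraicClosure K)
    obtain ⟨W, hW⟩ := cm_surjective γ V
    exact span_eq_top (γ : K →+* AlgebraicClosure K) fun x => (b1 _ γ W hW (some x)).1
  let ζ : Dat io (exd d n) I K := exD (mnD ξ) F a2 (b2 none).1 b3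
  let up : (Option J → ℕ) → J ⊕ P → ℕ := fun κ' =>
    Sum.elim (fun j => κ' (some j)) fun x => κ' none * κ x
  have c1 : ∀ κ', dot κ' (exd d n) = dot (up κ') (dP d P) := fun κ' => by
    rw [dot_dP, dot, Fintype.sum_option, add_comm, ← Finset.mul_sum]
    congr 2
    rw [exd, hn, dot_dP]; simp [dot]
  have c2 : ∀ κ' : Option J → ℕ, (∀ j, κ' j ≤ N) → ∀ j, up κ' j ≤ N' := fun κ' hκ => by
    rintro (j | x)
    exacts [(hκ _).trans hN1, (Nat.mul_le_mul (hκ none) (a1 x)).trans hN2]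
  have c3 : ∀ κ' : Option J → ℕ, (∀ j, κ' j ≤ N) → NAt ζ V κ' := by
    intro κ' hκ L _ _ α W hW
    have e : ∀ t, (lw κ' ((ζ.map α).pt t)).val W = (lw (up κ') ((ξ.map α).pt t)).val W := fun t => by
      rw [val_lw_elim, val_lw', Fintype.prod_option, mul_comm, val_lw']
      congr 1
      refine (congrArg (· ^ κ' none) (b1 L α W hW t).2).trans ?_
      rw [val_lw_elim, val_lw']
      simp only [Pi.zero_apply, pow_zero, Finset.prod_const_one, one_mul,
        ← Finset.prod_pow, ← pow_mul, mul_comm]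
    simp only [c1, e]
    exact h _ (c2 κ' hκ) L α W
  have c4 : ∀ N₁ ≤ N, TL (exd d n) N₁ (ζ.cfg.red (plV V)) := fun N₁ h1 =>
    tl_loc (plV V) (fun κ' hκ => c3 κ' fun j => (hκ j).trans h1) fun κ' hκ =>
      finrank_of_inj fun σ => by
        rw [c1]; exact nrm_inj (h _ (c2 κ' fun j => (hκ j).trans h1))
  refine ⟨n, ζ, rfl, fun q => ?_, c4 N le_rfl, fun L _ _ α W hW κ' hκ => c3 κ' hκ L α W hW⟩
  obtain ⟨l, h1, h2⟩ := a4 q
  refine on_of_wd G ((c4 N le_rfl).nz q) (hT q) h1 fun i i' => ?_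
  set c := ch V (Sum.elim 0 κ) (ξ.pt (ξ.x q)) with hc
  set e := ζ.cfg.nrm V q none / c with he
  have e1 : e ∈ V.1 := by
    rw [← RZ.le_one_iff, he, map_div₀, hc, v_ch, Cfg.nrm, map_inv₀, v_gen, ← (b2 (ξ.x q)).2]
    exact div_self_le_one _
  have e2 : ∀ i, (ζ.cfg.red (plV V)).y q none i =
      (plV V).r e * (plV V).r (c * hv n (F i) (ξ.x q)) := fun i => by
    have h3 : c * hv n (F i) (ξ.x q) ∈ V.1 :=
      ch_mem.2 ((b2 (ξ.x q)).2 ▸ mem_Sec_mxf (fun i => hv n (F i) (ξ.x q)) i V)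
    rw [← Pl.r_mul (p := plV V) e1 h3, ← mul_assoc, he, div_mul_cancel₀ _ (ch_ne _ _ _)]
    rfl
  rw [e2, e2, mul_assoc, mul_assoc]
  exact congrArg _ (h2 i i')

/-- **liftable data exist over a finite extension** -/
theorem lftStmt : LftStmt := by
  intro J _ _ io _ _ A A' _ _ T T' d G N M K _ _ _ _ ξ
  obtain ⟨L, _, _, _, _, _, P, I, I₀, _, _, _, _, g, m, η, h1, h2, h3, h4⟩ := exists_aux ξ
    (N + N * ∑ l, dot (G.m l) d + 2 * ∑ l, dot (G.m l) d + 2 + ∑ a, ∑ j, T.k a j)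
  refine ⟨L, inferInstance, inferInstance, Algebra.EssFiniteType.comp ℂ K L, _, I, inferInstance,
    m, mnD η, by rw [deg_tower]; exact Module.finrank_pos, h1, fun κ hκ => nrm_mnD.2 (h2 _ ?_),
    liftAt G h2 (fun a j => le_trans ?_ (Nat.le_add_left _ _)) (by omega) (by omega) (by omega)
      (by omega) g h3 h4⟩
  · rintro (j | x)
    · exact (hκ j).trans (by omega)
    · exact Nat.zero_le _
  · exact (Finset.single_le_sum (f := T.k a) (fun _ _ => Nat.zero_le _) (Finset.mem_univ j)).trans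
      (Finset.single_le_sum (f := fun a => ∑ j, T.k a j) (fun _ _ => Nat.zero_le _)
        (Finset.mem_univ a))

end Crest.Agent.X262.Emb96
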